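import Vale.Agent.P073Z.Fin.Stmt

/-!
# Piecewise affine maps on an open set
-/

open Set Topology

namespace Vale.Agent.N073

open Vale.Agent.P073Z.Fin

/-- `h` is piecewise affine on `Ω`: the set `Ω` is the underlying space of a geometric simplicial
complex, every point of `Ω` has a neighbourhood which meets only finitely many of its simplices,
and on each simplex `h` agrees with an affine map. -/
def IsPiecewiseAffineOn (h : R3 → R3) (Ω : Set R3) : Prop :=
  ∃ K : Geometry.SimplicialComplex ℝ R3, K.space = Ω ∧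
    (∀ x ∈ Ω, ∃ U ∈ 𝓝 x, {s ∈ K.faces | (convexHull ℝ (s : Set R3) ∩ U).Nonempty}.Finite) ∧
    ∀ s ∈ K.faces, ∃ A : R3 →ᵃ[ℝ] R3, EqOn h A (convexHull ℝ (s : Set R3))

end Vale.Agent.N073
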