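import Vale.Agent.P073Z.Sv.All

/-!
# Smoothing of everywhere conical homeomorphisms with uniform control

The moves of the singular points are repeated with a bound for the displacement: a move is a
Lipschitz map supported in a thin tube, hence close to the identity.
-/

open Set Metric MeasureTheory Topology Filter
open scoped ContDiff ENNReal NNReal RealInnerProductSpace

noncomputable section

namespace Vale.Agent.N073

open Vale.Agent.P073Z.Sm Vale.Agent.P073Z.Sv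

/-- a cheap change which is also uniformly small -/
structure ChgS (p : ℝ) (Ω Λ : Set E) (h h' : E → E) (K : Set E) (δ : ℝ≥0∞) : Prop
    extends Chg p Ω Λ h h' K δ where
  sup : ∀ x ∈ Ω, ‖h' x - h x‖ₑ ≤ δ

theorem enorm_tri (a b c : E) : ‖a - c‖ₑ ≤ ‖b - c‖ₑ + ‖a - b‖ₑ := by
  rw [show a - c = (b - c) + (a - b) by abel]
  exact enorm_add_le _ _

namespace ChgS

variable {p : ℝ} {Ω Λ K K' : Set E} {h h' h'' : E → E} {δ δ' : ℝ≥0∞}

theorem refl (hh : Homeo h Ω Λ) (δ : ℝ≥0∞) : ChgS p Ω Λ h h ∅ δ :=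
  ⟨Stage.chg_refl hh δ, fun _ _ => by simp⟩

theorem mono (hc : ChgS p Ω Λ h h' K δ) (hd : δ ≤ δ') : ChgS p Ω Λ h h' K δ' :=
  ⟨Stage.chg_mono hc.toChg hd, fun x hx => (hc.sup x hx).trans hd⟩

theorem trans (a : ChgS p Ω Λ h h' K δ) (b : ChgS p Ω Λ h' h'' K' δ') :
    ChgS p Ω Λ h h'' (K ∪ K') (δ + δ') :=
  ⟨blockDIST.trans _ _ _ _ _ _ _ _ _ _ a.toChg b.toChg, fun x hx =>
    (enorm_tri _ _ _).trans (add_le_add (a.sup x hx) (b.sup x hx))⟩

theorem fin (a : ChgS p Ω Λ h h' K δ) (hΩ : IsOpen Ω) (hδ : δ < ⊤) (hE : En p Ω h < ⊤) :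
    En p Ω h' < ⊤ := blockDIST.chgfin _ _ _ _ _ _ _ hΩ hδ a.toChg hE

end ChgS

/-- a singular point can be moved at small cost and with small displacement -/
def MvS (p : ℝ) (V : Set E) (v w : E) : Prop :=
  ∀ (h : E → E) (Ω Λ P : Set E) (δ : ℝ≥0∞), IsOpen Ω → IsOpen Λ → V ⊆ Ω → Homeo h Ω Λ →
    Disjoint V P → (∀ x ∈ Ω, x ∉ P → x ≠ v → LD h x) → Nice h v → En p Ω h < ⊤ → 0 < δ →
    ∃ (h' : E → E) (K : Set E), K ⊆ V ∧ ChgS p Ω Λ h h' K δ ∧ h' w = h w ∧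
      (∀ x ∈ Ω, x ∉ P → x ≠ w → LD h' x) ∧ Nice h' w

/-- a Lipschitz map supported in a thin tube is close to the identity -/
theorem thin {η : E → E} {C : ℝ≥0} {v w : E} {r : ℝ} (hvw : w ≠ v) (hr : 0 < r)
    (hl : LipschitzWith C η) (hoff : ∀ y, y ∉ thickening r (segment ℝ v w) → η y = y) (x : E) :
    ‖η x - x‖ ≤ (C + 1) * (2 * r) := by
  by_cases hx : x ∈ thickening r (segment ℝ v w)
  swap
  · rw [hoff x hx, sub_self, norm_zero]; positivity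
  have hn : ‖w - v‖ ≠ 0 := norm_ne_zero_iff.2 (sub_ne_zero.2 hvw)
  obtain ⟨u, hu, heu⟩ := EM.exists_orth _ (norm_smul_inv_norm (𝕜 := ℝ) (sub_ne_zero.2 hvw))
  have h0 : ⟪u, w - v⟫ = 0 := by
    rw [real_inner_smul_left, mul_eq_zero] at heu
    rw [real_inner_comm]
    exact heu.resolve_left (inv_ne_zero hn)
  have h1 : ∀ y ∈ thickening r (segment ℝ v w), |⟪u, y - v⟫| < r := fun y hy => by
    obtain ⟨z, hz, hyz⟩ := mem_thickening_iff.1 hy
    rw [segment_eq_image'] at hz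
    obtain ⟨t, -, rfl⟩ := hz
    have h2 : ⟪u, y - v⟫ = ⟪u, y - (v + t • (w - v))⟫ := by
      rw [← sub_sub, inner_sub_right u (y - v), real_inner_smul_right, h0, mul_zero, sub_zero]
    rw [h2]
    refine (abs_real_inner_le_norm _ _).trans_lt ?_
    rwa [hu, one_mul, ← dist_eq_norm]
  have h2 : η (x + (2 * r) • u) = x + (2 * r) • u := hoff _ fun h3 => by
    have h4 := h1 _ h3
    rw [add_sub_right_comm, inner_add_right, real_inner_smul_right, real_inner_self_eq_norm_sq,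
      hu] at h4
    linarith [(abs_lt.1 h4).2, (abs_lt.1 (h1 x hx)).1]
  have h3 : ‖(2 * r) • u‖ = 2 * r := by
    rw [norm_smul, hu, mul_one, Real.norm_of_nonneg (by positivity)]
  have h4 := hl.norm_sub_le x (x + (2 * r) • u)
  rw [h2, sub_add_cancel_left, norm_neg, h3] at h4
  have h5 := norm_sub_le_norm_sub_add_norm_sub (η x) (x + (2 * r) • u) x
  rw [add_sub_cancel_left, h3] at h5
  linarith

section Move

open Vale.Agent.P073Z.Sm.MOVE Vale.Agent.P073Z.Sv.MOVEH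

/-- one fountain move -/
theorem singleS (hF : StmtFOUNT) {p : ℝ} (hp : 1 ≤ p) {V : Set E} {v w u : E} (hV : IsOpen V)
    (hseg : segment ℝ v w ⊆ V) (hvw : w ≠ v) (hu : ∀ s : ℝ, u ≠ s • (w - v)) {h : E → E}
    {Ω Λ P : Set E} {δ : ℝ≥0∞} (hVΩ : V ⊆ Ω) (hh : Homeo h Ω Λ)
    (hVP : Disjoint V P) (hld : ∀ x ∈ Ω, x ∉ P → x ≠ v → LD h x) (hN : NiceDir h v (w - v))
    (hfin : En p Ω h < ⊤) (hδ : 0 < δ) :
    ∃ (h' : E → E) (K : Set E), K ⊆ V ∧ ChgS p Ω Λ h h' K δ ∧ h' w = h w ∧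
      (∀ x ∈ Ω, x ∉ P → x ≠ w → LD h' x) ∧ NiceDir h' w u := by
  obtain ⟨D, T, hD, hT, hTw, hDT⟩ := hN
  rw [add_sub_cancel] at hTw
  have hp0 : 0 ≤ p := by linarith
  obtain ⟨C, H⟩ := hF T v w u hT hvw hTw hu
  obtain ⟨c, hc0, hc⟩ := exists_dist C hp0
  have hη : 0 < min δ (δ / ENNReal.ofReal c) :=
    lt_min hδ (pos_iff_ne_zero.2 (ENNReal.div_ne_zero.2 ⟨hδ.ne', ENNReal.ofReal_ne_top⟩))
  obtain ⟨r, hr, hrK⟩ := exists_radius hV hseg hVΩ hfin hδ hη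
  have hs : IsCompact (segment ℝ v w) := by
    rw [segment_eq_image']
    exact isCompact_Icc.image (by fun_prop)
  obtain ⟨δ1, -, hδ1, hδ1'⟩ := ENNReal.lt_iff_exists_real_btwn.1 hδ
  obtain ⟨θ, hθ, hθ'⟩ := Metric.uniformContinuousOn_iff_le.1
    (hs.cthickening.uniformContinuousOn_of_continuous
      (hh.cont.mono ((hrK _ subset_rfl).1.trans hVΩ))) δ1 (ENNReal.ofReal_pos.1 hδ1)
  set r' := min (2 * r) (θ / (2 * (C + 1))) with hr'
  have hr0 : 0 < r' := by positivity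
  have hr1 : (C + 1) * (2 * r') ≤ θ := by
    have := min_le_right (2 * r) (θ / (2 * (C + 1)))
    rw [← hr', le_div_iff₀ (by positivity)] at this
    linarith
  obtain ⟨η, Tw, K, hKc, hKN, hoff, hb, hlip, hanti, -, hTη, hTw1, hTw2, hηw⟩ :=
    H (thickening r' (segment ℝ v w)) isOpen_thickening
      (self_subset_thickening hr0 _) univ univ_mem
  have hKT : K ⊆ cthickening (2 * r) (segment ℝ v w) := hKN.trans
    ((thickening_mono (min_le_left _ _) _).trans (thickening_subset_cthickening _ _))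
  obtain ⟨hKV, hvol, hEK⟩ := hrK K hKT
  have hKΩ : K ⊆ Ω := hKV.trans hVΩ
  have hcont : Continuous η := hlip.continuous
  have hηK : MapsTo η K K := mapsTo_of_off hb.1 hoff Subset.rfl
  have hηΩ : BijOn η Ω Ω := bijOn_of_off hb hoff hKΩ
  have hopen : IsOpenMap η := (hanti.isInducing hcont).isOpenMap
    (by rw [hb.2.range_eq]; exact isOpen_univ)
  have hηP : ∀ x, x ∉ P → η x ∉ P := by
    intro x hx
    by_cases hxK : x ∈ K
    · exact disjoint_left.1 hVP (hKV (hηK hxK))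
    · rwa [hoff x hxK]
  have hwV : w ∈ V := hseg (right_mem_segment ℝ v w)
  have hsup : ∀ x ∈ Ω, ‖h (η x) - h x‖ₑ ≤ δ := fun x _ => by
    by_cases hxK : x ∈ K
    · rw [← ofReal_norm, ← dist_eq_norm]
      refine (ENNReal.ofReal_le_ofReal (hθ' _ (hKT (hηK hxK)) _ (hKT hxK) ?_)).trans hδ1'.le
      rw [dist_eq_norm]
      exact (thin hvw hr0 hlip (fun y hy => hoff y fun h0 => hy (hKN h0)) x).trans hr1
    · simp [hoff x hxK]
  refine ⟨fun x => h (η x), K, hKV, ⟨⟨hKc, fun x hx => by rw [hoff x hx],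
    homeo_comp hh ⟨hcont.continuousOn, hηΩ, fun W hW _ => hopen W hW⟩, hvol, ?_,
    hEK.trans (min_le_left _ _)⟩, hsup⟩, ?_, fun x hx hxP hxw => ?_, h, Tw, ?_, hTw1, hTw2, ?_⟩
  · have hcount : (insert w (η ⁻¹' {v})).Countable :=
      (((finite_singleton v).preimage hb.1.injOn).insert w).countable
    have hd : ∀ x ∈ K \ insert w (η ⁻¹' {v}), LD η x := fun x hx =>
      ld_of_comp hT hcont (fun e => hx.2 (Or.inr e)) (hTη x fun e => hx.2 (Or.inl e))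
    have h1 := blockCV p c η h (K \ insert w (η ⁻¹' {v})) ∅ hp0 hc0
      (hKc.measurableSet.diff hcount.measurableSet) hb.1.injOn
      (fun x hx => (hd x hx).differentiableAt) countable_empty
      (fun x hx _ => (hld _ (hKΩ (hηK hx.1)) (disjoint_left.1 hVP (hKV (hηK hx.1)))
        fun e => hx.2 (Or.inr e)).differentiableAt)
      fun x hx => hc _ (norm_fderiv_le_of_lipschitz ℝ hlip)
        (anti_fderiv hanti (hd x hx).differentiableAt)
    rw [(blockDIST.null p K _ _ h hcount).2] at h1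
    have h2 : En p (η '' (K \ insert w (η ⁻¹' {v}))) h ≤ δ / ENNReal.ofReal c :=
      (En_mono p ((image_mono sdiff_subset).trans hηK.image_subset) h).trans
        (hEK.trans (min_le_right _ _))
    exact h1.trans ((mul_le_mul_right h2 _).trans ENNReal.mul_div_le)
  · show h (η w) = h w
    rw [hηw.self_of_nhds, hom_fix hTw1]
  · by_cases hv : η x = v
    · have h1 : LD D (T (η x)) := by
        rw [hv, hom_fix hT]
        exact hD.self_of_nhds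
      refine (LD.comp (G := D) (F := fun y => T (η y)) h1 (hTη x hxw)).congr ?_
      have h2 : Tendsto η (𝓝 x) (𝓝 v) := hv ▸ hcont.continuousAt
      exact h2.eventually hDT
    · exact (hld _ (hηΩ.mapsTo hx) (hηP x hxP) hv).comp (ld_of_comp hT hcont hv (hTη x hxw))
  · filter_upwards [hV.mem_nhds hwV, isOpen_compl_singleton.mem_nhds hvw] with y hy hyv
    exact hld y (hVΩ hy) (disjoint_left.1 hVP hy) hyv
  · filter_upwards [hηw] with y hy
    rw [hy]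

theorem moveS {p : ℝ} (hp : 1 ≤ p) (V : Set E) (v w : E) (hV : IsOpen V) (hconv : Convex ℝ V)
    (hv : v ∈ V) (hw : w ∈ V) : MvS p V v w := by
  intro h Ω Λ P δ hΩ _ hVΩ hh hVP hld hN hfin hδ
  have hF := thmFOUNT
  by_cases hvw : v = w
  · subst hvw
    exact ⟨h, ∅, empty_subset _, ChgS.refl hh δ, rfl, hld, hN⟩
  obtain ⟨u0, -, D, T, hD, hT, hu0, hDT⟩ := hN
  have hO : IsOpen {u : E | ∀ᶠ y in 𝓝 (v + u), T y = y} :=
    isOpen_setOfPred_eventually_nhds.preimage (continuous_const_add v)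
  obtain ⟨u1, hu1, hoff⟩ := exists_off hO ⟨u0, hu0⟩ (w - v)
  obtain ⟨s, hs, hsV⟩ : ∃ s : ℝ, 0 < s ∧ v + s • u1 ∈ V := by
    have h1 : Tendsto (fun s : ℝ => v + s • u1) (𝓝[>] 0) (𝓝 v) := by
      have h2 : Continuous fun s : ℝ => v + s • u1 := by fun_prop
      simpa using (h2.tendsto 0).mono_left nhdsWithin_le_nhds
    exact ((h1.eventually (hV.mem_nhds hv)).and self_mem_nhdsWithin).exists.imp
      fun s h => ⟨h.2, h.1⟩
  have key : ∀ a : ℝ, w - v ≠ a • u1 := by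
    intro a ha
    have h0 : a ≠ 0 := fun h0 => hvw (by
      rw [h0, zero_smul] at ha
      exact (sub_eq_zero.1 ha).symm)
    exact hoff a⁻¹ (by rw [ha, smul_smul, inv_mul_cancel₀ h0, one_smul])
  have hu1ne : u1 ≠ 0 := fun h0 => hoff 0 (by rw [h0, zero_smul])
  have hδ1 : 0 < min δ 1 / 2 := ENNReal.half_pos (lt_min hδ one_pos).ne'
  have hδ2 : min δ 1 / 2 < ⊤ :=
    ENNReal.half_le_self.trans_lt ((min_le_right _ _).trans_lt ENNReal.one_lt_top)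
  obtain ⟨h1, K1, hK1, hc1, -, hld1, hN1⟩ := singleS hF hp (V := V \ {w}) (v := v)
    (w := v + s • u1) (u := w - (v + s • u1)) (hV.sdiff isClosed_singleton)
    (fun y hy => ⟨hconv.segment_subset hv hsV hy, fun e => by
      rw [segment_eq_image'] at hy
      obtain ⟨θ, -, hθ⟩ := hy
      refine key (θ * s) ?_
      rw [← mem_singleton_iff.1 e, ← hθ]
      simp [smul_smul]⟩)
    (fun e => smul_ne_zero hs.ne' hu1ne (add_eq_left.1 e))
    (fun a ha => key (a * s + s) (by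
      rw [add_sub_cancel_left, smul_smul] at ha
      rw [add_smul, ← ha]
      abel))
    (sdiff_subset.trans hVΩ) hh (hVP.mono_left sdiff_subset) hld
    ⟨D, T, hD, hT, by simpa using scale hT hu1 hs, hDT⟩ hfin hδ1
  have hne : w ≠ v + s • u1 := fun e => key s (by rw [e, add_sub_cancel_left])
  obtain ⟨u2, -, hu2⟩ := exists_off isOpen_univ univ_nonempty (w - (v + s • u1))
  obtain ⟨h2, K2, hK2, hc2, hw2, hld2, hN2⟩ := singleS hF hp hV (hconv.segment_subset hsV hw) hne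
    hu2 hVΩ hc1.homeo hVP hld1 hN1 (hc1.fin hΩ hδ2 hfin) hδ1
  refine ⟨h2, K1 ∪ K2, union_subset (hK1.trans sdiff_subset) hK2,
    (hc1.trans hc2).mono ?_,
    hw2.trans (hc1.off w fun hw1 => (hK1 hw1).2 rfl), hld2, u2,
    fun h0 => hu2 0 (by rw [h0, zero_smul]), hN2⟩
  rw [ENNReal.add_halves]
  exact min_le_left _ _

end Move

/-- closeness in the Sobolev distance and in the uniform distance -/
def DS (p : ℝ) (Ω : Set E) (h g : E → E) (η : ℝ≥0∞) : Prop :=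
  Dist p Ω h g ≤ η ∧ ∀ x ∈ Ω, ‖h x - g x‖ₑ ≤ η

theorem DS.tri {p : ℝ} {Ω : Set E} {h k g : E → E} {η η' : ℝ≥0∞} (h1 : 1 ≤ p) (hΩ : IsOpen Ω)
    (hh : ContinuousOn h Ω) (hk : ContinuousOn k Ω) (hg : ContinuousOn g Ω) (a : DS p Ω h k η)
    (b : DS p Ω k g η') : DS p Ω h g (η + η') :=
  ⟨(blockDIST.tri p Ω h k g h1 hΩ hh hk hg).trans (add_le_add a.1 b.1), fun x hx =>
    (enorm_tri _ (k x) _).trans ((add_le_add (b.2 x hx) (a.2 x hx)).trans_eq (add_comm _ _))⟩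

namespace Swn

open Vale.Agent.P073Z.Sm.Stage (half)
open Vale.Agent.P073Z.Sv.SWN (Ad)

variable {p : ℝ}

theorem mv_mono {V W : Set E} {v w : E} (h : MvS p V v w) (hVW : V ⊆ W) : MvS p W v w := by
  intro g Ω Λ P δ h1 h2 h3 h4 h5 h6 hn h7 h8
  obtain ⟨g', K, a, r⟩ := h g Ω Λ P δ h1 h2 (hVW.trans h3) h4 (h5.mono_left hVW) h6 hn h7 h8
  exact ⟨g', K, a.trans hVW, r⟩

/-- moving without control of the value at the new point -/
def MwS (p : ℝ) (V : Set E) (v w : E) : Prop :=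
  ∀ (h : E → E) (Ω Λ P : Set E) (δ : ℝ≥0∞), IsOpen Ω → IsOpen Λ → V ⊆ Ω → Homeo h Ω Λ →
    Disjoint V P → (∀ x ∈ Ω, x ∉ P → x ≠ v → LD h x) → Nice h v → En p Ω h < ⊤ → 0 < δ →
    ∃ (h' : E → E) (K : Set E), K ⊆ V ∧ ChgS p Ω Λ h h' K δ ∧
      (∀ x ∈ Ω, x ∉ P → x ≠ w → LD h' x) ∧ Nice h' w

theorem mwn_of {V : Set E} {v w : E} (h : MvS p V v w) : MwS p V v w := by
  intro g Ω Λ P δ h1 h2 h3 h4 h5 h6 hn h7 h8
  obtain ⟨g', K, a, b, _, c⟩ := h g Ω Λ P δ h1 h2 h3 h4 h5 h6 hn h7 h8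
  exact ⟨g', K, a, b, c⟩

theorem mwn_trans {V : Set E} {u v w : E} (h : MwS p V u v) (k : MwS p V v w) :
    MwS p V u w := by
  intro g Ω Λ P δ h1 h2 h3 h4 h5 h6 hn h7 h8
  obtain ⟨η, e0, e1, e2⟩ := half h8
  obtain ⟨g1, K1, a1, b1, c1, n1⟩ := h g Ω Λ P η h1 h2 h3 h4 h5 h6 hn h7 e0
  obtain ⟨g2, K2, a2, b2, c2⟩ := k g1 Ω Λ P η h1 h2 h3 b1.homeo h5 c1 n1
    (b1.fin h1 e1 h7) e0
  exact ⟨g2, K1 ∪ K2, union_subset a1 a2,
    (b1.trans b2).mono e2, c2⟩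

theorem mwn_all (hM : 1 ≤ p) {V : Set E} (hV : IsOpen V) (hc : IsPreconnected V) {v w : E}
    (hv : v ∈ V) (hw : w ∈ V) : MwS p V v w := by
  refine hc.induction₂' (MwS p V) (fun x hx => ?_)
    (fun _ _ _ _ _ _ a b => mwn_trans a b) hv hw
  obtain ⟨r, hr, hb⟩ := Metric.isOpen_iff.1 hV x hx
  refine mem_nhdsWithin_of_mem_nhds ?_
  filter_upwards [ball_mem_nhds x hr] with y hy
  exact ⟨mwn_of (mv_mono (moveS hM _ x y isOpen_ball (convex_ball x r) (mem_ball_self hr) hy) hb),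
    mwn_of (mv_mono (moveS hM _ y x isOpen_ball (convex_ball x r) hy (mem_ball_self hr)) hb)⟩

/-- moving inside a connected open set -/
theorem movec (hM : 1 ≤ p) {V : Set E} {v w : E} (hV : IsOpen V) (hc : IsPreconnected V)
    (hv : v ∈ V) (hw : w ∈ V) : MvS p V v w := by
  intro g Ω Λ P δ k1 k2 k3 k4 k5 k6 kn k7 k8
  by_cases hvw : v = w
  · subst hvw
    exact ⟨g, ∅, empty_subset _, ChgS.refl k4 δ, rfl, k6, kn⟩
  obtain ⟨r, hr, hb⟩ := Metric.isOpen_iff.1 hV w hw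
  obtain ⟨w', hw'⟩ := ((countable_singleton w).dense_compl ℝ).inter_open_nonempty (ball w r)
    isOpen_ball ⟨w, mem_ball_self hr⟩
  have hV' : IsOpen (V \ {w}) := hV.sdiff isClosed_singleton
  have hc' : IsPreconnected (V \ {w}) := blockCONN V {w} hV hc (countable_singleton w)
  obtain ⟨η, e0, e1, e2⟩ := half k8
  obtain ⟨g1, K1, a1, b1, c1, n1⟩ := mwn_all hM hV' hc' (v := v) (w := w') ⟨hv, hvw⟩
    ⟨hb hw'.1, hw'.2⟩ g Ω Λ P η k1 k2 (sdiff_subset.trans k3) k4 (k5.mono_left sdiff_subset) k6 kn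
    k7 e0
  obtain ⟨g2, K2, a2, b2, d2, c2⟩ := mv_mono (moveS hM _ w' w isOpen_ball (convex_ball w r) hw'.1
    (mem_ball_self hr)) hb g1 Ω Λ P η k1 k2 k3 b1.homeo k5 c1 n1
    (b1.fin k1 e1 k7) e0
  refine ⟨g2, K1 ∪ K2, union_subset (a1.trans sdiff_subset) a2,
    (b1.trans b2).mono e2, ?_, c2⟩
  rw [d2]
  exact b1.off w fun hK => (a1 hK).2 rfl

/-- one stage of the swindle -/
theorem stage (hM : 1 ≤ p) {h : E → E} {Ω Λ P D D' K' : Set E} {δ : ℝ≥0∞}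
    (hΩ : IsOpen Ω) (hΛ : IsOpen Λ) (hh : Homeo h Ω Λ) (hP : LocFin P Ω) (hn : ∀ x ∈ P, Nice h x)
    (hDc : IsCompact D) (hF : Full Ω D) (hPD : Disjoint P D) (hD'c : IsCompact D')
    (hD'Ω : D' ⊆ Ω) (hK'c : IsCompact K') (hK'Λ : K' ⊆ Λ) (hld : ∀ x ∈ Ω, x ∉ P → LD h x)
    (hen : En p Ω h < ⊤) (hδ : 0 < δ) :
    ∃ (h' : E → E) (P' K : Set E), ChgS p Ω Λ h h' K δ ∧ Disjoint K D ∧ LocFin P' Ω ∧
      (∀ x ∈ P', Nice h' x) ∧ (∀ x ∈ P', x ∉ D' ∧ h' x ∉ K') ∧ ∀ x ∈ Ω, x ∉ P' → LD h' x := by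
  have hL := blockLF
  have hE := blockEXH
  have main : ∀ B : Set E, B.Finite → ∀ (h : E → E) (P : Set E) (δ : ℝ≥0∞), Homeo h Ω Λ →
      LocFin P Ω → (∀ x ∈ P, Nice h x) → Disjoint P D → (∀ x ∈ Ω, x ∉ P → LD h x) → En p Ω h < ⊤ →
      0 < δ → (∀ x ∈ P, x ∉ B → x ∉ D' ∧ h x ∉ K') →
      ∃ (h' : E → E) (P' K : Set E), ChgS p Ω Λ h h' K δ ∧ Disjoint K D ∧ LocFin P' Ω ∧
        (∀ x ∈ P', Nice h' x) ∧ (∀ x ∈ P', x ∉ D' ∧ h' x ∉ K') ∧ ∀ x ∈ Ω, x ∉ P' → LD h' x := by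
    intro B hB
    induction B, hB using Set.Finite.induction_on with
    | empty =>
      intro h P δ hh hP hn _ hld _ _ hb
      exact ⟨h, P, ∅, ChgS.refl hh δ, empty_disjoint _, hP, hn,
        fun x hx => hb x hx (notMem_empty x), hld⟩
    | @insert v B _ _ ih =>
      intro h P δ hh hP hn hPD hld hen hδ hb
      by_cases hv : v ∈ P
      swap
      · refine ih h P δ hh hP hn hPD hld hen hδ fun x hx hxB => hb x hx ?_
        rintro (rfl | h')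
        exacts [hv hx, hxB h']
      have hvD : v ∈ Ω \ D := ⟨hP.1 hv, fun h' => disjoint_left.1 hPD hv h'⟩
      set W := connectedComponentIn (Ω \ D) v with hW
      have hWo : IsOpen W := (hΩ.sdiff hDc.isClosed).connectedComponentIn
      have hWs : W ⊆ Ω \ D := connectedComponentIn_subset _ _
      have hCc : (P \ {v}).Countable := (hL P Ω hΩ hP).1.mono sdiff_subset
      have hVo : IsOpen (W \ (P \ {v})) := by
        have e : W \ (P \ {v}) = W ∩ (Ω \ (P \ {v})) := by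
          ext x
          exact ⟨fun a => ⟨a.1, (hWs a.1).1, a.2⟩, fun a => ⟨a.1, a.2.2⟩⟩
        rw [e]
        exact hWo.inter ((hL P Ω hΩ hP).2 _ sdiff_subset)
      have hVc : IsPreconnected (W \ (P \ {v})) :=
        blockCONN W _ hWo isPreconnected_connectedComponentIn hCc
      have hvV : v ∈ W \ (P \ {v}) := ⟨mem_connectedComponentIn hvD, fun a => a.2 rfl⟩
      have hA : IsCompact (D' ∪ (Ω ∩ h ⁻¹' K')) :=
        hD'c.union (hE.pre h Ω Λ K' hΩ hΛ hh hK'c hK'Λ).1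
      obtain ⟨y, hy, hyA⟩ := hF v hvD _ hA (union_subset hD'Ω inter_subset_left)
      obtain ⟨w, ⟨hwW, hwA⟩, hwC⟩ := (hCc.dense_compl ℝ).inter_open_nonempty
        (W \ (D' ∪ (Ω ∩ h ⁻¹' K'))) (hWo.sdiff hA.isClosed) ⟨y, hy, hyA⟩
      obtain ⟨η, e0, e1, e2⟩ := half hδ
      obtain ⟨h1, K1, a1, b1, d1, c1, n1⟩ := movec hM hVo hVc hvV ⟨hwW, hwC⟩ h Ω Λ (P \ {v}) η
        hΩ hΛ (fun x hx => (hWs hx.1).1) hh (disjoint_left.2 fun x hx hx' => hx.2 hx')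
        (fun x hx hx' hxv => hld x hx fun hxP => hx' ⟨hxP, hxv⟩) (hn v hv) hen e0
      obtain ⟨h2, P', K2, b2, u2, r⟩ := ih h1 (insert w (P \ {v})) η b1.homeo
        ⟨insert_subset (hWs hwW).1 (sdiff_subset.trans hP.1), fun K hK hKΩ =>
          ((hP.2 K hK hKΩ).insert w).subset fun x hx =>
            hx.1.elim Or.inl fun a => Or.inr ⟨a.1, hx.2⟩⟩
        (by
          rintro x (rfl | hx)
          · exact n1
          · refine Main.nice_germ h h1 x ?_ (hn x hx.1)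
            filter_upwards [b1.cpt.isClosed.isOpen_compl.mem_nhds fun a => (a1 a).2 hx] with y hy
            exact b1.off y hy)
        (disjoint_left.2 fun x hx hx' => hx.elim (fun a => (hWs hwW).2 (a ▸ hx'))
          fun a => disjoint_left.1 hPD a.1 hx')
        (fun x hx hx' => c1 x hx (fun a => hx' (Or.inr a)) fun a => hx' (Or.inl a))
        (b1.fin hΩ e1 hen) e0 (by
          rintro x (rfl | hx) hxB
          · rw [d1]
            exact ⟨fun a => hwA (Or.inl a), fun a => hwA (Or.inr ⟨(hWs hwW).1, a⟩)⟩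
          · rw [b1.off x fun a => (a1 a).2 hx]
            refine hb x hx.1 ?_
            rintro (a | a)
            exacts [hx.2 a, hxB a])
      exact ⟨h2, P', K1 ∪ K2, (b1.trans b2).mono e2,
        disjoint_union_left.2 ⟨disjoint_left.2 fun x hx => (hWs (a1 hx).1).2, u2⟩, r⟩
  refine main _ (hP.2 _ (hD'c.union (hE.pre h Ω Λ K' hΩ hΛ hh hK'c hK'Λ).1)
    (union_subset hD'Ω inter_subset_left)) h P δ hh hP hn hPD hld hen hδ fun x hx hxB => ?_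
  exact ⟨fun a => hxB ⟨hx, Or.inl a⟩, fun a => hxB ⟨hx, Or.inr ⟨hP.1 hx, a⟩⟩⟩

open Vale.Agent.P073Z.Sm.Swindle (Fz)

variable {Ω Λ : Set E}

theorem halfStep (h1 : 1 ≤ p) (hΩ : IsOpen Ω) (hΛ : IsOpen Λ)
    (bΛ : Bornology.IsBounded Λ) {h : E → E} {P D D' K' : Set E} (a : Ad Nice p Ω Λ h P)
    (z : Fz Ω P D) (c1 : IsCompact D') (s1 : D' ⊆ Ω) (c2 : IsCompact K') (s2 : K' ⊆ Λ)
    {η : ℝ≥0∞} (hη : 0 < η) :
    ∃ (h' : E → E) (P' : Set E), Ad Nice p Ω Λ h' P' ∧ EqOn h' h D ∧ DS p Ω h' h η ∧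
      ∀ x ∈ P', x ∉ D' ∧ h' x ∉ K' := by
  obtain ⟨δ, hδ, H⟩ := blockDIST.chg p Λ η h1 bΛ hη
  obtain ⟨h', P', K, c, kD, lf, n, out, ld⟩ := stage h1 hΩ hΛ a.homeo a.lf a.n z.cpt z.full
    z.dis c1 s1 c2 s2 a.ld a.en (δ := min (min δ η) 1) (lt_min (lt_min hδ hη) one_pos)
  exact ⟨h', P', ⟨c.homeo, lf, n, ld,
    c.fin hΩ ((min_le_right _ _).trans_lt ENNReal.one_lt_top) a.en⟩,
    fun x hx => c.off x (disjoint_right.1 kD hx),
    ⟨H Ω K h h' hΩ a.homeo.bij.mapsTo (c.mono ((min_le_left _ 1).trans (min_le_left _ _))).toChg,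
      (c.mono ((min_le_left _ 1).trans (min_le_right _ _))).sup⟩, out⟩

theorem step (h1 : 1 ≤ p) (hΩ : IsOpen Ω) (hΛ : IsOpen Λ)
    (bΩ : Bornology.IsBounded Ω) (bΛ : Bornology.IsBounded Λ) {h : E → E} {P D A B : Set E}
    (a : Ad Nice p Ω Λ h P) (z : Fz Ω P D) (c1 : IsCompact A) (s1 : A ⊆ Ω) (c2 : IsCompact B)
    (s2 : B ⊆ Λ) {η : ℝ≥0∞} (hη : 0 < η) :
    ∃ (h' : E → E) (P' D' : Set E), Ad Nice p Ω Λ h' P' ∧ Fz Ω P' D' ∧ EqOn h' h D ∧
      DS p Ω h' h η ∧ D ⊆ D' ∧ A ⊆ D' ∧ B ⊆ h' '' D' := by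
  have hE := blockEXH
  have hη' : 0 < η / 2 := ENNReal.half_pos hη.ne'
  obtain ⟨K, -, k1, k2, -⟩ := hE.exh Ω hΩ bΩ
  obtain ⟨L, -, l1, l2, -⟩ := hE.exh Λ hΛ bΛ
  obtain ⟨m, hm⟩ := k2 (D ∪ A) (z.cpt.union c1) (union_subset z.sub s1)
  obtain ⟨f, R, a1, e1, d1, o1⟩ := halfStep h1 hΩ hΛ bΛ a z (k1 m).1 (k1 m).2.1
    isCompact_empty (empty_subset _) hη'
  obtain ⟨n, hn⟩ := l2 (f '' K m ∪ B)
    (((k1 m).1.image_of_continuousOn (a1.homeo.cont.mono (k1 m).2.1)).union c2)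
    (union_subset (image_subset_iff.2 fun x hx => a1.homeo.bij.mapsTo ((k1 m).2.1 hx)) s2)
  obtain ⟨h', P', a2, e2, d2, o2⟩ := halfStep h1 hΩ hΛ bΛ a1
    ⟨(k1 m).1, (k1 m).2.1, (k1 m).2.2, disjoint_left.2 fun x hx => (o1 x hx).1⟩ isCompact_empty
    (empty_subset _) (l1 n).1 (l1 n).2.1 hη'
  have pre := hE.pre h' Ω Λ (L n) hΩ hΛ a2.homeo (l1 n).1 (l1 n).2.1
  have sub : K m ⊆ Ω ∩ h' ⁻¹' L n := fun x hx =>
    ⟨(k1 m).2.1 hx, by rw [mem_preimage, e2 hx]; exact hn (Or.inl (mem_image_of_mem f hx))⟩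
  refine ⟨h', P', Ω ∩ h' ⁻¹' L n, a2, ⟨pre.1, inter_subset_left, pre.2 (l1 n).2.2,
    disjoint_left.2 fun x hx hx' => (o2 x hx).2 hx'.2⟩,
    fun x hx => (e2 (hm (Or.inl hx))).trans (e1 hx), ?_, fun x hx => sub (hm (Or.inl hx)),
    fun x hx => sub (hm (Or.inr hx)), fun y hy => ?_⟩
  · rw [← ENNReal.add_halves η]
    exact DS.tri h1 hΩ a2.homeo.cont a1.homeo.cont a.homeo.cont d2 d1
  · obtain ⟨x, hx, rfl⟩ := a2.homeo.bij.surjOn (s2 hy)
    exact mem_image_of_mem _ ⟨hx, hn (Or.inr hy)⟩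

/-- the swindle -/
theorem swindle (h1 : 1 ≤ p) {g : E → E} {P : Set E} {ε : ℝ≥0∞} (hΩ : IsOpen Ω) (hΛ : IsOpen Λ)
    (bΩ : Bornology.IsBounded Ω) (bΛ : Bornology.IsBounded Λ) (hg : Homeo g Ω Λ) (hP : LocFin P Ω)
    (hn : ∀ x ∈ P, Nice g x) (hld : ∀ x ∈ Ω, x ∉ P → LD g x) (hen : En p Ω g < ⊤) (hε : 0 < ε) :
    ∃ F : E → E, Homeo F Ω Λ ∧ (∀ x ∈ Ω, LD F x) ∧ DS p Ω F g ε := by
  classical
  have hE := blockEXH
  have hD := blockDIST
  obtain ⟨η, η0, ηs⟩ := ENNReal.exists_pos_sum_of_countable hε.ne' ℕ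
  obtain ⟨K, -, k1, -, k3⟩ := hE.exh Ω hΩ bΩ
  obtain ⟨L, -, l1, -, l3⟩ := hE.exh Λ hΛ bΛ
  let T := {t : (E → E) × Set E × Set E // Ad Nice p Ω Λ t.1 t.2.1 ∧ Fz Ω t.2.1 t.2.2}
  have st : ∀ (j : ℕ) (s : T), ∃ s' : T, EqOn s'.1.1 s.1.1 s.1.2.2 ∧
      DS p Ω s'.1.1 s.1.1 (η j) ∧ s.1.2.2 ⊆ s'.1.2.2 ∧ K j ⊆ s'.1.2.2 ∧
      L j ⊆ s'.1.1 '' s'.1.2.2 := fun j s => by
    obtain ⟨h', P', D', a, z, r⟩ := step h1 hΩ hΛ bΩ bΛ s.2.1 s.2.2 (k1 j).1
      (k1 j).2.1 (l1 j).1 (l1 j).2.1 (η := η j) (ENNReal.coe_pos.2 (η0 j))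
    exact ⟨⟨(h', P', D'), a, z⟩, r⟩
  choose f hf using st
  let s0 : T := ⟨(g, P, ∅), ⟨hg, hP, hn, hld, hen⟩,
    isCompact_empty, empty_subset _, hE.empty Ω hΩ bΩ, disjoint_empty _⟩
  let s : ℕ → T := fun j => Nat.rec s0 f j
  obtain ⟨h, R, D, a, z, e0, r⟩ : ∃ (h : ℕ → E → E) (R D : ℕ → Set E),
      (∀ j, Ad Nice p Ω Λ (h j) (R j)) ∧ (∀ j, Fz Ω (R j) (D j)) ∧ h 0 = g ∧
      ∀ j, EqOn (h (j + 1)) (h j) (D j) ∧ DS p Ω (h (j + 1)) (h j) (η j) ∧ D j ⊆ D (j + 1) ∧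
        K j ⊆ D (j + 1) ∧ L j ⊆ h (j + 1) '' D (j + 1) :=
    ⟨fun j => (s j).1.1, fun j => (s j).1.2.1, fun j => (s j).1.2.2, fun j => (s j).2.1,
      fun j => (s j).2.2, rfl, fun j => hf j (s j)⟩
  have mono : Monotone D := monotone_nat_of_le_succ fun j => (r j).2.2.1
  have stab : ∀ i j, i ≤ j → EqOn (h j) (h i) (D i) := fun i j hij => by
    induction j, hij using Nat.le_induction with
    | base => exact fun _ _ => rfl
    | succ j hij ih => exact fun x hx => ((r j).1 (mono hij hx)).trans (ih hx)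
  obtain ⟨F, F1⟩ : ∃ F : E → E, ∀ j, EqOn F (h j) (D j) := by
    refine ⟨fun x => if hx : ∃ j, x ∈ D j then h hx.choose x else g x, fun j x hx => ?_⟩
    have hx' : ∃ j, x ∈ D j := ⟨j, hx⟩
    exact (dif_pos hx').trans ((stab _ _ (le_max_left _ j) hx'.choose_spec).symm.trans
      (stab _ _ (le_max_right _ j) hx))
  have nb : ∀ x ∈ Ω, ∀ᶠ j in atTop, D j ∈ 𝓝 x := fun x hx => by
    obtain ⟨j, hj⟩ := k3 x hx
    filter_upwards [eventually_ge_atTop (j + 1)] with i hi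
    exact mem_of_superset hj ((r j).2.2.2.1.trans (mono hi))
  have ld : ∀ x ∈ Ω, LD F x := fun x hx => by
    obtain ⟨j, hj⟩ := (nb x hx).exists
    exact ((a j).ld x hx (disjoint_right.1 (z j).dis (mem_of_mem_nhds hj))).congr
      (eventually_of_mem hj (F1 j))
  have inj : InjOn F Ω := fun x hx y hy e => by
    obtain ⟨j, j1, j2⟩ := ((nb x hx).and (nb y hy)).exists
    rw [F1 j (mem_of_mem_nhds j1), F1 j (mem_of_mem_nhds j2)] at e
    exact (a j).homeo.bij.injOn hx hy e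
  refine ⟨F, ⟨fun x hx => (ld x hx).continuousAt.continuousWithinAt,
    ⟨fun x hx => ?_, inj, fun y hy => ?_⟩, (blockINV E F Ω hΩ inj ld).1⟩, ld, ?_⟩
  · obtain ⟨j, hj⟩ := (nb x hx).exists
    rw [F1 j (mem_of_mem_nhds hj)]
    exact (a j).homeo.bij.mapsTo hx
  · obtain ⟨j, hj⟩ := l3 y hy
    obtain ⟨x, hx, rfl⟩ := (r j).2.2.2.2 (mem_of_mem_nhds hj)
    exact ⟨x, (z _).sub hx, F1 _ hx⟩
  · have key : ∀ j, DS p Ω (h j) g (∑ i ∈ Finset.range j, (η i : ℝ≥0∞)) := fun j => by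
      induction j with
      | zero => rw [e0]; exact ⟨by rw [hD.self]; exact zero_le, fun _ _ => by simp⟩
      | succ j ih =>
        rw [Finset.sum_range_succ_comm]
        exact DS.tri h1 hΩ (a _).homeo.cont (a j).homeo.cont hg.cont (r j).2.1 ih
    have hle := fun j => (ENNReal.sum_le_tsum (Finset.range j)).trans ηs.le
    refine ⟨hD.lim p Ω h F g ε h1 hΩ (fun j => (a j).homeo.cont) hg.cont
      (fun x hx => (nb x hx).mono fun j hj => eventually_of_mem hj fun y hy => (F1 j hy).symm)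
      fun j => (key j).1.trans (hle j), fun x hx => ?_⟩
    obtain ⟨j, hj⟩ := (nb x hx).exists
    rw [F1 j (mem_of_mem_nhds hj)]
    exact ((key j).2 x hx).trans (hle j)

end Swn

open Vale.Agent.P073Z.Sm.Main Vale.Agent.P073Z.Sv.Main in
/-- the smoothing theorem with uniform control -/
theorem smoothingS {p : ℝ} {g : E → E} {Ω Λ : Set E} {ε : ℝ≥0∞} (hp1 : 1 ≤ p) (hΩ : IsOpen Ω)
    (hΛ : IsOpen Λ) (hbΩ : Bornology.IsBounded Ω) (hbΛ : Bornology.IsBounded Λ) (hg : Homeo g Ω Λ)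
    (hcone : ∀ x ∈ Ω, ConeAt g x) (hE : En p Ω g < ⊤) (hε : 0 < ε) :
    ∃ F G : E → E, ContDiffOn ℝ ∞ F Ω ∧ ContDiffOn ℝ ∞ G Λ ∧ BijOn F Ω Λ ∧ InvOn G F Ω Λ ∧
      DS p Ω F g ε := by
  have hVX := blockVX
  have hC := blockCONE
  have hFACE := thmFACEH
  have hEDGE := thmEDGEH
  have hN := blockNICE
  have hD := blockDIST
  have hTOP := blockTOP
  set e : ℝ≥0∞ := min ε 1 / 3 with he
  have he0 : 0 < e := ENNReal.div_pos (lt_min hε one_pos).ne' (by norm_num)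
  have het : e < ⊤ := ENNReal.div_lt_top (ne_top_of_le_ne_top ENNReal.one_ne_top (min_le_right _ _))
    (by norm_num)
  have he3 : e + (e + e) ≤ ε := by
    have : e + (e + e) = min ε 1 := by
      have h3 : e + (e + e) = 3 * e := by ring
      rw [h3, he, ENNReal.mul_div_cancel (by norm_num) (by norm_num)]
    rw [this]; exact min_le_left _ _
  set V : Set E := Sk g Ω 0 with hV0
  have hV : LocFin V Ω := blockST.vert g _ hΩ hcone
  obtain ⟨hVc, hVo⟩ := blockLF V _ hΩ hV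
  have hU : IsOpen (Ω \ V) := hVo V subset_rfl
  have hUΩ : Ω \ V ⊆ Ω := sdiff_subset
  have hbU : Bornology.IsBounded (Ω \ V) := hbΩ.subset hUΩ
  obtain ⟨δ0, hδ0, hde0⟩ := hD.de p Ω e hp1 hbΩ he0
  obtain ⟨δ1, -, hδ1, hδ1'⟩ := ENNReal.lt_iff_exists_real_btwn.1 he0
  set δ := min δ0 δ1 with hδd
  have hδ : 0 < δ := lt_min hδ0 (ENNReal.ofReal_pos.1 hδ1)
  have hde : ∀ a b : E → E, (∀ x, x ∉ Ω \ V → a x = b x) → DE p (Ω \ V) a b ≤ ENNReal.ofReal δ →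
      (∀ x ∈ Ω \ V, ‖a x - b x‖ ≤ δ) → DS p Ω a b e := fun a b h0 h1 h2 => by
    refine ⟨?_, fun x _ => ?_⟩
    · rw [← (hD.null p Ω V a b hVc).1]
      exact hde0 _ a b hU hUΩ (h1.trans (ENNReal.ofReal_le_ofReal (min_le_left _ _)))
        fun x hx => (h2 x hx).trans (min_le_left _ _)
    · by_cases hx : x ∈ Ω \ V
      · rw [← ofReal_norm]
        exact (ENNReal.ofReal_le_ofReal ((h2 x hx).trans (min_le_right _ _))).trans hδ1'.le
      · simp [h0 x hx]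
  -- faces
  have hr0 : ∀ v : E, ∃ r : ℝ, v ∈ V → 0 < r ∧ ConeMap g v r := fun v => by
    by_cases hv : v ∈ V
    · obtain ⟨r, hr⟩ := (hC.radius g v).1 (hcone v (hV.1 hv))
      exact ⟨r, fun _ => hr⟩
    · exact ⟨1, fun h => (hv h).elim⟩
  choose r0 hr0 using hr0
  obtain ⟨γ, r, hγl, hγ, hVx, hr, hγv⟩ := gaugeH hVX r0 hΩ hbΩ hΛ hbΛ hg hδ hV
    (fun v hv => (hr0 v hv).1)
  obtain ⟨h, S, hoff, hcont, hbij, hclose, hDE, hSU, hSo, hLD, hEC, hhv⟩ :=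
    hFACE p g (Ω \ V) V r γ (ENNReal.ofReal δ) hp1 hU hbU (hg.cont.mono hUΩ)
      (hg.bij.injOn.mono hUΩ) (fun x hx => hcone x hx.1)
      (fun x hx => by
        by_contra hlt
        exact hx.2 ⟨hx.1, by omega⟩)
      hγl (fun x hx => (hγ x hx).1) (ENNReal.ofReal_pos.2 hδ) hVx
      (fun v hv => ⟨coneMap_mono (hr0 v hv).2 (hr v hv), hγv v hv⟩)
  have hh : Homeo h Ω Λ := hTOP g h Ω Λ _ hΩ hΛ hbΛ hU hUΩ hg hoff hcont hbij
    (fun x hx => ⟨(hclose x hx).trans (hγ x hx).2.2.1, (hclose x hx).trans (hγ x hx).2.2.2⟩)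
  have d1 : DS p Ω h g e := hde h g hoff hDE (fun x hx => (hclose x hx).trans (hγ x hx).2.1)
  -- edges
  obtain ⟨γ', r', hγl', hγ', hVx', hr', hγv'⟩ := gaugeH hVX (fun v => r v / 32) hΩ hbΩ hΛ hbΛ hh hδ
    hV (fun v hv => by have := hVx.pos v hv; positivity)
  obtain ⟨h', hoff', hLD', hbij', hclose', hDE', hhv'⟩ :=
    hEDGE p h (Ω \ V) (h '' (Ω \ V)) S V r' γ' (ENNReal.ofReal δ) hp1 hU hbU (restr hh hUΩ) hSU hSo
      hLD hEC hγl' (fun x hx => (hγ' x hx).1) (ENNReal.ofReal_pos.2 hδ) hVx'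
      (fun v hv => ⟨coneMap_mono (hhv v hv).1 (hr' v hv), coneSet_mono (hhv v hv).2.1 (hr' v hv),
        (hhv v hv).2.2, hγv' v hv⟩)
  have hh' : Homeo h' Ω Λ := hTOP h h' Ω Λ _ hΩ hΛ hbΛ hU hUΩ hh hoff'
    (fun x hx => (hLD' x hx).continuousAt.continuousWithinAt) hbij'
    (fun x hx => ⟨(hclose' x hx).trans (hγ' x hx).2.2.1, (hclose' x hx).trans (hγ' x hx).2.2.2⟩)
  have d2 : DS p Ω h' h e :=
    hde h' h hoff' hDE' (fun x hx => (hclose' x hx).trans (hγ' x hx).2.1)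
  have hEh : En p Ω h < ⊤ := hD.fin p Ω h g hp1 hE (d1.1.trans_lt het)
  have hEh' : En p Ω h' < ⊤ := hD.fin p Ω h' h hp1 hEh (d2.1.trans_lt het)
  -- vertices
  have hnice : ∀ v ∈ V, Nice h' v := fun v hv =>
    hN h' Ω Λ v hΩ hh' (hV.1 hv) (hhv' v hv).1 (hhv' v hv).2 (by
      have h1 : ball v (r' v) ∈ 𝓝[≠] v :=
        mem_nhdsWithin_of_mem_nhds (ball_mem_nhds _ (hVx'.pos v hv))
      filter_upwards [h1, self_mem_nhdsWithin] with y hy hyv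
      exact hLD' y (hVx'.sub v hv y hy hyv))
  obtain ⟨F, hF, hFL, d3⟩ := Swn.swindle hp1 hΩ hΛ hbΩ hbΛ hh' hV hnice
    (fun x hx hxV => hLD' x ⟨hx, hxV⟩) hEh' he0
  obtain ⟨-, hG⟩ := blockINV E F Ω hΩ hF.bij.injOn hFL
  refine ⟨F, Function.invFunOn F Ω, fun x hx => (hFL x hx).1.contDiffWithinAt,
    fun y hy => (hG y (by rw [hF.bij.image_eq]; exact hy)).1.contDiffWithinAt, hF.bij,
    hF.bij.invOn_invFunOn, ?_⟩
  have t := DS.tri hp1 hΩ hF.cont hh'.cont hg.cont d3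
    (DS.tri hp1 hΩ hh'.cont hh.cont hg.cont d2 d1)
  exact ⟨t.1.trans he3, fun x hx => (t.2 x hx).trans he3⟩

end Vale.Agent.N073
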