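import Vale.Agent.P073Z.TriU
import Vale.Agent.P073Z.DER
import Vale.Agent.P073Z.DER.Api

/-!
# The derived complex as a simplicial complex
-/

open Set Metric Topology Filter

namespace Vale.Agent.N073

open _root_.P073

variable {E : Type} [NormedAddCommGroup E] [NormedSpace ℝ E] {K : RCx E} (d : Derived K)

/-- the set `V` consists of barycentres of a chain of cells -/
def Ch (V : Set E) : Prop :=
  V ⊆ range d.b ∧ ∀ i j, d.b i ∈ V → d.b j ∈ V → K.cell i ⊆ K.cell j ∨ K.cell j ⊆ K.cell i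

variable {d}

theorem Ch.mono {V W : Set E} (h : Ch d V) (hW : W ⊆ V) : Ch d W :=
  ⟨hW.trans h.1, fun i j hi hj => h.2 i j (hW hi) (hW hj)⟩

theorem Ch.mem_iff {V : Set E} (h : Ch d V) (hV : V.Finite) {x : E} :
    x ∈ convexHull ℝ V ↔ x ∈ K.carrier ∧ ∀ j, d.t j x ≠ 0 → d.b j ∈ V := by
  set s := (hV.preimage d.b_injective.injOn).toFinset with hs
  have hm : ∀ j, j ∈ s ↔ d.b j ∈ V := fun j => Finite.mem_toFinset _
  constructor
  · intro hx
    have e : V = (s.map ⟨d.b, d.b_injective⟩ : Finset E) := by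
      ext v
      simp only [Finset.coe_map, Function.Embedding.coeFn_mk, mem_image, Finset.mem_coe, hm]
      exact ⟨fun hv => let ⟨i, hi⟩ := h.1 hv; ⟨i, hi ▸ hv, hi⟩, fun ⟨i, hi, e⟩ => e ▸ hi⟩
    rw [e, Finset.mem_convexHull'] at hx
    obtain ⟨w, h0, h1, rfl⟩ := hx
    rw [Finset.sum_map] at h1 ⊢
    obtain ⟨h2, -, h3⟩ := d.coord s (fun i => w (d.b i))
      (fun i hi j hj => h.2 i j ((hm i).1 hi) ((hm j).1 hj))
      (fun i hi => h0 _ (Finset.mem_map_of_mem _ hi)) h1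
    exact ⟨h2, fun j hj => (hm j).1 (by_contra fun hn => hj (h3 j hn))⟩
  · rintro ⟨hx, h1⟩
    obtain ⟨h2, h3⟩ := d.repr_of hx (s := s) fun j hj => (hm j).2 (h1 j hj)
    rw [← h3]
    exact (convex_convexHull ℝ V).sum_mem (fun j _ => d.nonneg j x) h2
      fun j hj => subset_convexHull ℝ V ((hm j).1 hj)

theorem Ch.top {V : Set E} (h : Ch d V) (hV : V.Finite) (hn : V.Nonempty) :
    ∃ i, ∀ j, d.b j ∈ V → K.cell j ⊆ K.cell i := by
  obtain ⟨v, hv⟩ := hn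
  obtain ⟨m, rfl⟩ := h.1 hv
  obtain ⟨i, hi, h1⟩ := exists_max_image _ K.dim (hV.preimage d.b_injective.injOn) ⟨m, hv⟩
  refine ⟨i, fun j hj => (h.2 j i hj hi).elim id fun h2 => ?_⟩
  rw [K.eq_of_subset_of_dim_le h2 (h1 j hj)]

variable (d)

theorem exists_coord {x : E} (hx : x ∈ K.carrier) : ∃ j, d.t j x ≠ 0 :=
  let ⟨i, hi⟩ := K.exists_ocell hx; ⟨i, (d.top i x hi).1⟩

/-- the derived simplicial complex -/
def derCx : Geometry.SimplicialComplex ℝ E where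
  faces := {t | t.Nonempty ∧ Ch d t}
  isRelLowerSet_faces := fun _ ht => ⟨ht.1, fun _ hs hn => ⟨hn, ht.2.mono hs⟩⟩
  indep := fun {t} ht => by
    by_contra hn
    obtain ⟨I, x, h1, h2⟩ := Convex.radon_partition hn
    have hs : ∀ J : Set t, ((↑) '' J : Set E) ⊆ t := fun J => by
      rintro _ ⟨v, -, rfl⟩
      exact v.2
    rw [(ht.2.mono (hs _)).mem_iff (t.finite_toSet.subset (hs _))] at h1 h2
    obtain ⟨j, hj⟩ := exists_coord d h1.1
    obtain ⟨v, hv, e⟩ := h1.2 j hj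
    obtain ⟨w, hw, e'⟩ := h2.2 j hj
    exact hw (Subtype.val_injective (e.trans e'.symm) ▸ hv)
  inter_subset_convexHull := fun {s t} hs ht x hx => by
    have h1 := (hs.2.mem_iff s.finite_toSet).1 hx.1
    have h2 := (ht.2.mem_iff t.finite_toSet).1 hx.2
    exact ((hs.2.mono inter_subset_left).mem_iff (s.finite_toSet.inter_of_left _)).2
      ⟨h1.1, fun j hj => ⟨h1.2 j hj, h2.2 j hj⟩⟩

theorem exists_complex [FiniteDimensional ℝ E] (K : RCx E) (hK : K.Cvx) :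
    ∃ S : Geometry.SimplicialComplex ℝ E, S.space = K.carrier ∧
      (∀ x ∈ K.carrier, ∃ U ∈ 𝓝 x,
        {s ∈ S.faces | (convexHull ℝ (s : Set E) ∩ U).Nonempty}.Finite) ∧
      ∀ s ∈ S.faces, ∃ i, convexHull ℝ (s : Set E) ⊆ K.cell i := by
  choose b hb using K.ocell_nonempty
  obtain ⟨d, -⟩ := der K hK b hb
  have top : ∀ s ∈ (derCx d).faces, ∃ i, convexHull ℝ (s : Set E) ⊆ K.cell i ∧
      ∀ j, d.b j ∈ s → K.cell j ⊆ K.cell i := fun s hs => by
    obtain ⟨i, hi⟩ := hs.2.top s.finite_toSet hs.1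
    refine ⟨i, convexHull_min (fun v hv => ?_) (hK i).1, hi⟩
    obtain ⟨j, rfl⟩ := hs.2.1 hv
    exact hi j hv (d.b_mem_cell j)
  refine ⟨derCx d, ?_, fun x hx => ?_, fun s hs => (top s hs).imp fun _ h => h.1⟩
  · ext x
    rw [Geometry.SimplicialComplex.mem_space_iff]
    refine ⟨fun ⟨s, hs, hx⟩ => ((hs.2.mem_iff s.finite_toSet).1 hx).1, fun hx => ?_⟩
    have hf := (d.finite_support x).image d.b
    have hc : Ch d hf.toFinset := by
      rw [hf.coe_toFinset]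
      refine ⟨image_subset_range _ _, fun i j hi hj => d.chain x i j ?_ ?_⟩
      · exact (d.b_injective.mem_set_image).1 hi
      · exact (d.b_injective.mem_set_image).1 hj
    obtain ⟨j, hj⟩ := exists_coord d hx
    exact ⟨hf.toFinset, ⟨⟨_, hf.mem_toFinset.2 ⟨j, hj, rfl⟩⟩, hc⟩,
      (hc.mem_iff (Finset.finite_toSet _)).2 ⟨hx, fun i hi => hf.mem_toFinset.2 ⟨i, hi, rfl⟩⟩⟩
  · obtain ⟨U, hU, hf⟩ := K.lfIn x hx
    refine ⟨U, hU, (Set.Finite.preimage Finset.coe_injective.injOn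
      ((hf.biUnion fun i _ => K.lfIn.finite_meet (K.isCompact_cell i)
        (K.cell_subset_carrier i)).image d.b).finite_subsets).subset ?_⟩
    rintro s ⟨hs, y, hy, hyU⟩ v hv
    obtain ⟨i, h1, h2⟩ := top s hs
    obtain ⟨j, rfl⟩ := hs.2.1 hv
    exact ⟨j, mem_biUnion (show (K.cell i ∩ U).Nonempty from ⟨y, h1 hy, hyU⟩)
      ⟨_, d.b_mem_cell j, h2 j hv (d.b_mem_cell j)⟩, rfl⟩

/-- a continuous map which is conical at all points of an open set is affine on the simplices of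
a locally finite triangulation of the set -/
theorem exists_triangulation [FiniteDimensional ℝ E] {h : E → E} {Ω : Set E} (hΩ : IsOpen Ω)
    (hc : ContinuousOn h Ω) (hh : ∀ x ∈ Ω, ∃ r : ℝ, 0 < r ∧ ∀ v : E, ‖v‖ ≤ r →
      ∀ t ∈ Icc (0 : ℝ) 1, h (x + t • v) = h x + t • (h (x + v) - h x)) :
    ∃ S : Geometry.SimplicialComplex ℝ E, S.space = Ω ∧
      (∀ x ∈ Ω, ∃ U ∈ 𝓝 x, {s ∈ S.faces | (convexHull ℝ (s : Set E) ∩ U).Nonempty}.Finite) ∧
      ∀ s ∈ S.faces, ∃ A : E →ᵃ[ℝ] E, EqOn h A (convexHull ℝ (s : Set E)) := by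
  obtain ⟨K, hK, hcar, -, hA⟩ := tri (fun _ : Unit => Ω) (fun _ => h) (r := fun _ => 1) hΩ
    ⟨continuousOn_const, fun _ _ => one_pos⟩ (fun x _ => ⟨univ, univ_mem, toFinite _⟩)
    fun _ => ⟨Subset.rfl, fun x hx _ => hx, fun x hx => locConeAt_of_mem_nhds (hΩ.mem_nhds hx),
      hc, fun x hx => by
        obtain ⟨r, hr, h1⟩ := hh x hx
        obtain ⟨ρ, hρ, h2⟩ := Metric.nhds_basis_closedBall.mem_iff.1 (hΩ.mem_nhds hx)
        refine ⟨min r ρ, lt_min hr hρ, fun v hv _ t ht => ⟨h2 ?_,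
          h1 v (hv.trans (min_le_left _ _)) t ht⟩⟩
        rw [mem_closedBall, dist_eq_norm, add_sub_cancel_left]
        exact norm_smul_le_of_mem_Icc ht (hv.trans (min_le_right _ _))⟩
  obtain ⟨S, h1, h2, h3⟩ := exists_complex K hK
  refine ⟨S, h1.trans hcar, hcar ▸ h2, fun s hs => ?_⟩
  obtain ⟨i, hi⟩ := h3 s hs
  obtain ⟨A, hA⟩ := (hA ()).2 i (hcar ▸ K.cell_subset_carrier i)
  exact ⟨A, hA.mono hi⟩

end Vale.Agent.N073
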