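import Vale.Agent.N073.Cone
import Vale.Agent.N073.Defs
import Vale.Agent.N073.Smooth
import Vale.Agent.N073.Tri
import Vale.Agent.P073Z.Fin.Main0

/-!
# Approximation of Sobolev homeomorphisms, uniformly and in the Sobolev norm
-/

open Set Metric MeasureTheory Topology Filter
open scoped ContDiff ENNReal NNReal

noncomputable section

namespace Vale.Agent.N073

open Vale.Agent.P073Z.Fin Vale.Agent.P073Z.Fin.W Vale.Agent.P073Z.Sm

theorem isW1p_of_lip {p : ℝ} {Ω Λ : Set R3} {g : R3 → R3} (hΩ : IsOpen Ω)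
    (hb : Bornology.IsBounded Ω) (hbΛ : Bornology.IsBounded Λ) (hg : LocallyLipschitzOn Ω g)
    (hm : MapsTo g Ω Λ) (hD : MemLp (fderiv ℝ g) (ENNReal.ofReal p) (volume.restrict Ω)) :
    IsW1p p Ω g (fun x => mat (fderiv ℝ g x)) := by
  have := fin_restrict hb
  obtain ⟨R, hR⟩ := hbΛ.exists_norm_le
  have hgL : MemLp g (ENNReal.ofReal p) (volume.restrict Ω) :=
    MemLp.of_bound (hg.continuousOn.aestronglyMeasurable hΩ.measurableSet) R
      ((ae_restrict_mem hΩ.measurableSet).mono fun x hx => hR _ (hm hx))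
  refine ⟨fun i => (EuclideanSpace.proj i : R3 →L[ℝ] ℝ).comp_memLp' hgL, fun i j =>
    ((EuclideanSpace.proj i : R3 →L[ℝ] ℝ).comp
      (ContinuousLinearMap.apply ℝ R3 (EuclideanSpace.single j (1 : ℝ)))).comp_memLp' hD,
    fun φ hφ hc hs i j => ?_⟩
  obtain ⟨K, hK, hKi, hKΩ⟩ := exists_compact_between hc hΩ hs
  obtain ⟨L, hL⟩ := (hg.mono hKΩ).exists_lipschitzOnWith_of_compact hK
  obtain ⟨u, hu, he⟩ := ((EuclideanSpace.proj i : R3 →L[ℝ] ℝ).lipschitz.comp_lipschitzOnWith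
    hL).extend_real
  obtain ⟨D, hD⟩ := ContDiff.lipschitzWith_of_hasCompactSupport hc hφ (by simp)
  set v : R3 := EuclideanSpace.single j 1 with hv
  have hs' : tsupport (fun x => fderiv ℝ φ x v) ⊆ tsupport φ := tsupport_fderiv_apply_subset ℝ v
  rw [setIntegral_eq_integral_of_forall_compl_eq_zero fun x hx => by
      rw [image_eq_zero_of_notMem_tsupport (f := fun x => fderiv ℝ φ x v)
        fun h => hx (hs (hs' h)), mul_zero],
    setIntegral_eq_integral_of_forall_compl_eq_zero fun x hx => by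
      rw [image_eq_zero_of_notMem_tsupport fun h => hx (hs h), mul_zero]]
  have l1 : ∫ x, mat (fderiv ℝ g x) i j * φ x = ∫ x, lineDeriv ℝ u x v * φ x := by
    refine integral_congr_ae ((hL.ae_differentiableWithinAt_of_mem (μ := volume)).mono
      fun x hx => ?_)
    by_cases hxs : x ∈ tsupport φ
    · have h1 := mem_interior_iff_mem_nhds.1 (hKi hxs)
      have hd : HasFDerivAt u ((EuclideanSpace.proj i : R3 →L[ℝ] ℝ).comp (fderiv ℝ g x)) x :=
        ((EuclideanSpace.proj i : R3 →L[ℝ] ℝ).hasFDerivAt.comp x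
          ((hx (mem_of_mem_nhds h1)).differentiableAt h1).hasFDerivAt).congr_of_eventuallyEq
          (eventually_of_mem h1 fun y hy => (he hy).symm)
      simp only [(hd.hasLineDerivAt v).lineDeriv]
      rfl
    · simp [image_eq_zero_of_notMem_tsupport hxs]
  rw [l1, LipschitzWith.integral_lineDeriv_mul_eq (μ := volume) hu hD hc v, ← integral_neg]
  refine integral_congr_ae (ae_of_all _ fun x => ?_)
  simp only [(hφ.differentiable (by simp) x).lineDeriv_eq_fderiv, map_neg]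
  by_cases hxs : x ∈ tsupport φ
  · rw [← he (interior_subset (hKi hxs))]
    simp [mul_comm]
  · simp [image_eq_zero_of_notMem_tsupport (f := fun x => fderiv ℝ φ x v) fun h => hxs (hs' h)]

theorem isHomeoOnto_of {h : R3 → R3} {Ω Λ : Set R3} (hΩ : IsOpen Ω) (hΛ : IsOpen Λ)
    (hh : Homeo h Ω Λ) : IsHomeoOnto h Ω Λ := by
  have hi := hh.bij.invOn_invFunOn
  refine ⟨hh.bij, hh.cont, _, hi, (continuousOn_open_iff hΛ).2 fun V hV => ?_⟩
  convert hh.opn _ (hV.inter hΩ) inter_subset_right using 1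
  ext y
  constructor
  · exact fun hy => ⟨_, ⟨hy.2, hh.bij.surjOn.mapsTo_invFunOn hy.1⟩, hi.2 hy.1⟩
  · rintro ⟨x, hx, rfl⟩
    exact ⟨hh.bij.mapsTo hx.2, by rw [mem_preimage, hi.1 hx.2]; exact hx.1⟩

/-- closeness in the uniform norm and of the derivatives -/
def Cl (p : ℝ) (Ω : Set R3) (f : R3 → R3) (Df : R3 → Matrix (Fin 3) (Fin 3) ℝ) (g : R3 → R3)
    (ε : ℝ) : Prop :=
  (∀ x ∈ Ω, ‖g x - f x‖ ≤ 2 * ε) ∧
    eLpNorm (fun x => fderiv ℝ g x - clm (Df x)) (ENNReal.ofReal p) (volume.restrict Ω) ≤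
      ENNReal.ofReal ε + ENNReal.ofReal ε ^ p⁻¹

/-- one approximation step -/
theorem stepS {p : ℝ} (hp : 1 ≤ p) (hPL : PL0 p) {Ω Λ : Set R3} {f : R3 → R3}
    {Df : R3 → Matrix (Fin 3) (Fin 3) ℝ} (hΩ : IsBoundedDomain Ω) (hΛ : IsBoundedDomain Λ)
    (hf : IsHomeoOnto f Ω Λ) (hW : IsW1p p Ω f Df) {ε : ℝ} (hε : 0 < ε) :
    (∃ g : R3 → R3, (IsDiffeoOnto g Ω Λ ∧ IsW1p p Ω g fun x => mat (fderiv ℝ g x)) ∧
      Cl p Ω f Df g ε) ∧
    ∃ h : R3 → R3, (IsHomeoOnto h Ω Λ ∧ IsPiecewiseAffineOn h Ω ∧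
      IsW1p p Ω h fun x => mat (fderiv ℝ h x)) ∧ Cl p Ω f Df h ε := by
  have hp0 : 0 < p := by linarith
  obtain ⟨hb, hc, f', hinv, hc'⟩ := hf
  have hH : P073.HomeoOn f f' Ω Λ :=
    ⟨hb.mapsTo, fun y hy => by
      obtain ⟨x, hx, rfl⟩ := hb.surjOn hy
      rw [hinv.1 hx]; exact hx, hinv.1, hinv.2, hc, hc'⟩
  have hF := memLp_clm hW.2.1
  obtain ⟨h, hh, hcone, hcl, hen⟩ := hPL Ω Λ f f' (fun x => clm (Df x)) ε hΩ.1 hΛ.1 hΩ.2.1
    hΛ.2.1 hΩ.2.2 hΛ.2.2 hε hH hF.1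
    (by rw [lint_eq hp]; exact ENNReal.rpow_lt_top_of_nonneg hp0.le hF.2.ne)
    (weak_of hp hΩ.2.2 hW)
  have hen' := eLp_le hp hen
  have hmeas : ∀ k : R3 → R3, AEStronglyMeasurable (fderiv ℝ k) (volume.restrict Ω) := fun k =>
    (measurable_fderiv ℝ k).aestronglyMeasurable
  have hfin : (ENNReal.ofReal ε) ^ p⁻¹ < ⊤ :=
    ENNReal.rpow_lt_top_of_nonneg (by positivity) ENNReal.ofReal_ne_top
  have hDh : MemLp (fderiv ℝ h) (ENNReal.ofReal p) (volume.restrict Ω) :=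
    memLp_of_sub (hmeas h) hF hen' hfin
  obtain ⟨g, G, hg, hG, hgb, hgi, hd, hs⟩ := smoothingS hp hΩ.1 hΛ.1 hΩ.2.2 hΛ.2.2 hh hcone (by
      rw [En, lint_eq hp]; exact ENNReal.rpow_lt_top_of_nonneg hp0.le hDh.2.ne)
    (ENNReal.ofReal_pos.2 hε)
  have hd1 := le_self_add.trans hd
  have hDg : MemLp (fderiv ℝ g) (ENNReal.ofReal p) (volume.restrict Ω) :=
    memLp_of_sub (hmeas g) hDh hd1 ENNReal.ofReal_lt_top
  refine ⟨⟨g, ⟨⟨hgb, hg, G, hgi, hG⟩,
    isW1p_of_smooth hp hΩ.1 hΩ.2.2 hΛ.2.2 hg hgb.mapsTo hDg⟩, fun x hx => ?_,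
    (tri (one_le hp) (hmeas g) (hmeas h) hF.1).trans (add_le_add hd1 hen')⟩, h,
    ⟨isHomeoOnto_of hΩ.1 hΛ.1 hh, exists_triangulation hΩ.1 hh.cont hcone,
      isW1p_of_lip hΩ.1 hΩ.2.2 hΛ.2.2 (fun x hx => ?_) hh.bij.mapsTo hDh⟩,
    fun x hx => (hcl x hx).trans (by linarith), le_add_left hen'⟩
  · have h1 := hs x hx
    rw [← ofReal_norm, ENNReal.ofReal_le_ofReal_iff hε.le] at h1
    linarith [norm_sub_le_norm_sub_add_norm_sub (g x) (h x) (f x), hcl x hx]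
  · obtain ⟨L, W, hW, hL⟩ := (vpa_of_cone _ R3 rfl h Ω hΩ.1 hcone x hx).lip
    exact ⟨L, W, mem_nhdsWithin_of_mem_nhds hW, hL⟩

theorem conv {p : ℝ} (hp : 1 ≤ p) {Ω : Set R3} (hΩ : IsBoundedDomain Ω) {f : R3 → R3}
    {Df : R3 → Matrix (Fin 3) (Fin 3) ℝ} {g : ℕ → R3 → R3}
    (h : ∀ k : ℕ, Cl p Ω f Df (g k) (1 / ((k : ℝ) + 1))) :
    Tendsto (fun k => ∫⁻ x in Ω, ENNReal.ofReal
      (‖g k x - f x‖ ^ p + frob (mat (fderiv ℝ (g k) x) - Df x) ^ p)) atTop (𝓝 0) ∧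
    TendstoUniformlyOn g f atTop Ω := by
  have hp0 : 0 < p := by linarith
  have t0 := tendsto_one_div_add_atTop_nhds_zero_nat (𝕜 := ℝ)
  constructor
  · set e : ℕ → ℝ≥0∞ := fun k => ENNReal.ofReal (1 / ((k : ℝ) + 1)) with he
    have te : Tendsto e atTop (𝓝 0) := by simpa [he] using ENNReal.tendsto_ofReal t0
    have pw : ∀ {q : ℝ}, 0 < q → ∀ {u : ℕ → ℝ≥0∞}, Tendsto u atTop (𝓝 0) →
        Tendsto (fun k => u k ^ q) atTop (𝓝 0) := by
      intro q hq u hu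
      have := (ENNReal.continuous_rpow_const (y := q)).continuousAt.tendsto.comp hu
      simpa [Function.comp_def, ENNReal.zero_rpow_of_pos hq] using this
    have h3 : (3 : ℝ≥0∞) ^ p ≠ ⊤ := ENNReal.rpow_ne_top_of_nonneg hp0.le (by norm_num)
    have t3 : Tendsto (fun k => volume Ω * (e k + e k) ^ p + 3 ^ p * (e k + e k ^ p⁻¹) ^ p)
        atTop (𝓝 0) := by
      have t1 : Tendsto (fun k => e k + e k) atTop (𝓝 0) := by simpa using te.add te
      have t2 : Tendsto (fun k => e k + e k ^ p⁻¹) atTop (𝓝 0) := by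
        simpa using te.add (pw (inv_pos.2 hp0) te)
      simpa using (ENNReal.Tendsto.const_mul (pw hp0 t1) (Or.inr hΩ.2.2.measure_lt_top.ne)).add
        (ENNReal.Tendsto.const_mul (pw hp0 t2) (Or.inr h3))
    refine tendsto_of_tendsto_of_tendsto_of_le_of_le tendsto_const_nhds t3 (fun _ => zero_le)
      fun k => ?_
    have h1 : ∀ x ∈ Ω, ENNReal.ofReal (‖g k x - f x‖ ^ p +
        frob (mat (fderiv ℝ (g k) x) - Df x) ^ p) ≤
        (e k + e k) ^ p + 3 ^ p * ‖fderiv ℝ (g k) x - clm (Df x)‖ₑ ^ p := fun x hx => by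
      refine (integrand_le hp0.le _ _ _).trans (add_le_add (ENNReal.rpow_le_rpow ?_ hp0.le) le_rfl)
      rw [← ofReal_norm, he, ← ENNReal.ofReal_add (by positivity) (by positivity), ← two_mul]
      exact ENNReal.ofReal_le_ofReal ((h k).1 x hx)
    refine (setLIntegral_mono' hΩ.1.measurableSet h1).trans ?_
    rw [lintegral_add_left measurable_const, lintegral_const_mul' _ _ h3, lint_eq hp,
      setLIntegral_const, mul_comm]
    gcongr
    exact (h k).2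
  · rw [Metric.tendstoUniformlyOn_iff]
    intro ε hε
    filter_upwards [t0.eventually (gt_mem_nhds (half_pos hε))] with k hk x hx
    rw [dist_comm, dist_eq_norm]
    linarith [(h k).1 x hx]

end Vale.Agent.N073
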