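import Vale.Agent.N073.Fix
import Vale.Agent.N073.Main
import Vale.Agent.P073Y.Ac.All2
import Vale.Agent.P073Y.Ac4.All

/-!
# The everywhere conical approximation for all exponents
-/

namespace Vale.Agent.N073

open _root_.P073

theorem pla0_all {p : ℝ} (h1 : 1 ≤ p) : An.PLA0 p := by
  rcases lt_trichotomy p 2 with h | rfl | h
  · exact pla0_of_pla Ax.alex pla h1 h
  · exact Ac.pla0_2_of (Gc.fix2 one_le_two (by norm_num))
  · rcases lt_or_ge p 3 with h3 | h3
    · exact Ac.pla0 h h3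
    · exact Ac4.pla0 h3

theorem pl0_all {p : ℝ} (h1 : 1 ≤ p) : Vale.Agent.P073Z.Fin.PL0 p := An.tr0 h1 (pla0_all h1)

end Vale.Agent.N073
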