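import Mathlib

/-!
# Maps which are conical at every point are piecewise affine and locally Lipschitz
-/

open Set Metric Filter Topology

noncomputable section

namespace Vale.Agent.N073

variable {X Y : Type} [NormedAddCommGroup X] [NormedSpace ℝ X] [NormedAddCommGroup Y]
  [NormedSpace ℝ Y]

/-- near `x`, the map `h` is affine on each of finitely many polytopes inside `U` which cover a
neighbourhood of `x` -/
def VPA (h : X → Y) (x : X) (U : Set X) : Prop :=
  ∃ T : Set (Set X), T.Finite ∧ (⋃ s ∈ T, convexHull ℝ s) ∈ 𝓝 x ∧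
    ∀ s ∈ T, s.Finite ∧ convexHull ℝ s ⊆ U ∧ ∃ A : X →ᵃ[ℝ] Y, EqOn h A (convexHull ℝ s)

omit [NormedSpace ℝ Y] in
/-- a pointwise Lipschitz bound at all points of a convex set is a Lipschitz bound -/
theorem lip_of_pointwise {f : X → Y} {S : Set X} (hS : Convex ℝ S) {L : ℝ}
    (h : ∀ x ∈ S, ∀ᶠ y in 𝓝[S] x, ‖f y - f x‖ ≤ L * ‖y - x‖) {x y : X} (hx : x ∈ S)
    (hy : y ∈ S) : ‖f y - f x‖ ≤ L * ‖y - x‖ := by
  set γ : ℝ → X := fun t => x + t • (y - x) with hγ
  have hγc : Continuous γ := by fun_prop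
  have hγS : MapsTo γ (Icc 0 1) S := fun t ht => hS.add_smul_sub_mem hx hy ht
  have hcont : ContinuousOn f S := by
    intro z hz
    rw [ContinuousWithinAt, tendsto_iff_norm_sub_tendsto_zero]
    refine squeeze_zero' (Eventually.of_forall fun _ => norm_nonneg _) (h z hz) ?_
    have : Continuous fun w => L * ‖w - z‖ := by fun_prop
    simpa using (this.tendsto z).mono_left nhdsWithin_le_nhds
  have hcl : IsClosed ({t : ℝ | ‖f (γ t) - f x‖ ≤ L * (t * ‖y - x‖)} ∩ Icc 0 1) := by
    rw [inter_comm]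
    exact isClosed_Icc.isClosed_le (f := fun t => ‖f (γ t) - f x‖)
      (g := fun t => L * (t * ‖y - x‖))
      ((hcont.comp hγc.continuousOn hγS).sub continuousOn_const).norm (by fun_prop)
  have := hcl.Icc_subset_of_forall_mem_nhdsWithin (by simp [hγ]) (fun t ht => ?_)
    (right_mem_Icc.2 zero_le_one)
  · simpa [hγ] using this
  · have h1 : Tendsto γ (𝓝[>] t) (𝓝[S] γ t) := by
      refine tendsto_nhdsWithin_iff.2 ⟨hγc.continuousAt.tendsto.mono_left nhdsWithin_le_nhds, ?_⟩
      filter_upwards [Ioc_mem_nhdsGT ht.2.2] with s hs using hγS ⟨ht.2.1.trans hs.1.le, hs.2⟩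
    filter_upwards [h1.eventually (h _ (hγS ⟨ht.2.1, ht.2.2.le⟩)), self_mem_nhdsWithin]
      with s hs hst
    have h2 : ‖γ s - γ t‖ = (s - t) * ‖y - x‖ := by
      rw [show γ s - γ t = (s - t) • (y - x) by simp only [hγ]; module, norm_smul,
        Real.norm_of_nonneg (sub_nonneg.2 (le_of_lt hst))]
    have h3 : ‖f (γ t) - f x‖ ≤ L * (t * ‖y - x‖) := ht.1
    change ‖f (γ s) - f x‖ ≤ L * (s * ‖y - x‖)
    calc ‖f (γ s) - f x‖ ≤ ‖f (γ s) - f (γ t)‖ + ‖f (γ t) - f x‖ := norm_sub_le_norm_sub_add_norm_sub _ _ _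
      _ ≤ L * ((s - t) * ‖y - x‖) + L * (t * ‖y - x‖) := by rw [← h2]; exact add_le_add hs h3
      _ = L * (s * ‖y - x‖) := by ring

theorem VPA.lip [FiniteDimensional ℝ X] {h : X → Y} {x : X} {U : Set X} (hh : VPA h x U) :
    ∃ (L : NNReal) (V : Set X), V ∈ 𝓝 x ∧ LipschitzOnWith L h V := by
  obtain ⟨T, hT, hx, hA⟩ := hh
  choose! hf hU A hA using hA
  obtain ⟨L, hL⟩ := (hT.image fun s => ‖LinearMap.toContinuousLinearMap (A s).linear‖₊).bddAbove
  obtain ⟨r, hr, hb⟩ := Metric.mem_nhds_iff.1 hx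
  refine ⟨L, ball x r, ball_mem_nhds x hr, LipschitzOnWith.of_dist_le_mul fun y hy z hz => ?_⟩
  rw [dist_eq_norm, dist_eq_norm]
  refine lip_of_pointwise (convex_ball x r) (fun w _ => ?_) hz hy
  have h1 : ∀ᶠ v in 𝓝 w, ∀ s ∈ T, v ∈ convexHull ℝ s → w ∈ convexHull ℝ s := by
    rw [hT.eventually_all]
    intro s hs
    by_cases hw : w ∈ convexHull ℝ s
    · exact Eventually.of_forall fun _ _ => hw
    · filter_upwards [((hf s hs).isClosed_convexHull ℝ).isOpen_compl.mem_nhds hw] with v hv h2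
        using absurd h2 hv
  filter_upwards [mem_nhdsWithin_of_mem_nhds h1, self_mem_nhdsWithin] with v hv hvb
  obtain ⟨s, hs, hvs⟩ := mem_iUnion₂.1 (hb hvb)
  rw [hA s hs hvs, hA s hs (hv s hs hvs)]
  have h3 : A s v - A s w = LinearMap.toContinuousLinearMap (A s).linear (v - w) := by
    simpa using ((A s).linearMap_vsub v w).symm
  rw [h3]
  refine (ContinuousLinearMap.le_opNorm _ _).trans (mul_le_mul_of_nonneg_right ?_ (norm_nonneg _))
  exact_mod_cast hL (mem_image_of_mem _ hs)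

/-- `g` is positively homogeneous of degree one around `x`, near `x` -/
def Cone (g : X → Y) (x : X) : Prop :=
  ∃ r : ℝ, 0 < r ∧ ∀ v : X, ‖v‖ ≤ r → ∀ t ∈ Icc (0 : ℝ) 1,
    g (x + t • v) = g x + t • (g (x + v) - g x)

theorem vpa_of_cone (n : ℕ) : ∀ (X : Type) [NormedAddCommGroup X] [NormedSpace ℝ X]
    [FiniteDimensional ℝ X], Module.finrank ℝ X = n → ∀ (h : X → Y) (U : Set X), IsOpen U →
      (∀ y ∈ U, Cone h y) → ∀ x ∈ U, VPA h x U := by
  induction n using Nat.strong_induction_on with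
  | _ n ih =>
  intro X _ _ _ hn h U hU hc x hx
  obtain ⟨r0, hr0, hcx⟩ := hc x hx
  obtain ⟨r1, hr1, hb1⟩ := Metric.isOpen_iff.1 hU x hx
  set r := min r0 r1 / 2 with hrd
  have hr : 0 < r := by positivity
  have hbU : ball x (2 * r) ⊆ U :=
    (ball_subset_ball (by linarith [min_le_right r0 r1])).trans hb1
  have key : ∀ u ∈ sphere (0 : X) 1, ∃ T : Set (Set X), T.Finite ∧
      (∀ s ∈ T, s.Finite ∧ convexHull ℝ s ⊆ U ∧ ∃ A : X →ᵃ[ℝ] Y, EqOn h A (convexHull ℝ s)) ∧
      ∀ᶠ w in 𝓝 u, ∀ t ∈ Icc 0 (r / 2), x + t • w ∈ ⋃ s ∈ T, convexHull ℝ s := by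
    intro u hu
    have hu1 : ‖u‖ = 1 := by simpa using hu
    obtain ⟨φ, -, hφ⟩ := exists_dual_vector ℝ u (by rw [hu1]; norm_num)
    have hφu : φ u = 1 := by simpa [hu1] using hφ
    set H : Submodule ℝ X := LinearMap.ker (φ : X →ₗ[ℝ] ℝ) with hH
    have hHt : H ≠ ⊤ := fun h0 => by
      have : u ∈ H := h0 ▸ Submodule.mem_top
      simp [hH, hφu] at this
    have hφH : ∀ z : H, φ z = 0 := fun z => z.2
    set a : H →ᵃ[ℝ] X := AffineMap.const ℝ H (x + r • u) + H.subtype.toAffineMap with had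
    have ha : ∀ z : H, a z = x + r • u + z := fun z => rfl
    have hac : Continuous a := a.continuous_of_finiteDimensional
    set π : X →ₗ[ℝ] H := LinearMap.codRestrict H
      (LinearMap.id - (φ : X →ₗ[ℝ] ℝ).smulRight u) (fun w => by simp [hH, hφu]) with hπd
    have hπ : ∀ w, (π w : X) = w - φ w • u := fun w => rfl
    obtain ⟨T, hT, hT0, hTA⟩ := ih _ (hn ▸ Submodule.finrank_lt hHt) H rfl (fun z => h (a z))
      (a ⁻¹' ball x (2 * r)) (isOpen_ball.preimage hac) (fun z hz => by
        obtain ⟨ρ, hρ, h1⟩ := hc (a z) (hbU hz)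
        refine ⟨ρ, hρ, fun v hv t ht => ?_⟩
        have := h1 v hv t ht
        simpa [ha, add_assoc] using this) 0 (by
        simp only [mem_preimage, ha, mem_ball, dist_eq_norm, ZeroMemClass.coe_zero, add_zero,
          add_sub_cancel_left, norm_smul, hu1, Real.norm_of_nonneg hr.le]
        linarith)
    refine ⟨(fun s => insert x (a '' s)) '' T, hT.image _, ?_, ?_⟩
    · rintro _ ⟨s, hs, rfl⟩
      obtain ⟨hsf, hsU, A, hA⟩ := hTA s hs
      have hsub : convexHull ℝ (insert x (a '' s)) ⊆ ball x (2 * r) := by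
        refine convexHull_min (insert_subset (mem_ball_self (by positivity)) ?_) (convex_ball _ _)
        rintro _ ⟨z, hz, rfl⟩
        exact hsU (subset_convexHull ℝ s hz)
      set B : X →ₗ[ℝ] Y := (r⁻¹ • (φ : X →ₗ[ℝ] ℝ)).smulRight (A 0 - h x) + A.linear ∘ₗ π with hB
      refine ⟨(hsf.image _).insert _, hsub.trans hbU,
        B.toAffineMap + AffineMap.const ℝ X (h x - B x), fun y hy => ?_⟩
      change h y = B y + (h x - B x)
      rcases s.eq_empty_or_nonempty with rfl | hne
      · have : y = x := by simpa using hy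
        simp [this]
      rw [convexHull_insert (hne.image _), convexJoin_singleton_left, ← a.image_convexHull] at hy
      obtain ⟨_, ⟨z, hz, rfl⟩, hy⟩ := mem_iUnion₂.1 hy
      rw [segment_eq_image'] at hy
      obtain ⟨t, ht, rfl⟩ := hy
      have hv : ‖a z - x‖ ≤ r0 := by
        have : dist (a z) x < 2 * r := hsU hz
        rw [dist_eq_norm] at this
        linarith [min_le_left r0 r1]
      have e1 : a z - x = r • u + z := by rw [ha]; abel
      have e2 : π (r • u + z) = z := by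
        ext1
        rw [hπ]
        simp [hφu, hφH]
      have e3 : B (a z - x) = A z - h x := by
        have e4 : A z = A.linear z + A 0 := by simpa using A.map_vadd 0 z
        rw [e1, e4]
        simp only [hB, LinearMap.add_apply, LinearMap.smulRight_apply, LinearMap.smul_apply,
          LinearMap.comp_apply, e2]
        simp [hφu, hφH, hr.ne']
        abel
      have e5 : h (a z) = A z := hA hz
      simp only
      rw [hcx _ hv t ht, map_add, map_smul, e3, add_sub_cancel, e5]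
      abel
    · have hπc : Continuous π := π.continuous_of_finiteDimensional
      have h1 : ContinuousAt (fun w => (r / φ w) • π w) u :=
        (continuousAt_const.div φ.continuous.continuousAt (by simp [hφu])).smul hπc.continuousAt
      have hπu : π u = 0 := by ext1; rw [hπ]; simp [hφu]
      have h2 : ∀ᶠ w in 𝓝 u, (r / φ w) • π w ∈ ⋃ s ∈ T, convexHull ℝ s :=
        h1.preimage_mem_nhds (by simpa only [hπu, smul_zero] using hT0)
      have h3 : ∀ᶠ w in 𝓝 u, φ w ∈ Ioo (0 : ℝ) 2 :=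
        φ.continuous.continuousAt.eventually (Ioo_mem_nhds (by simp [hφu]) (by simp [hφu]))
      filter_upwards [h2, h3] with w hw hw' t ht
      obtain ⟨s, hs, hz⟩ := mem_iUnion₂.1 hw
      refine mem_biUnion (mem_image_of_mem _ hs) ?_
      have h4 : a ((r / φ w) • π w) ∈ convexHull ℝ (insert x (a '' s)) :=
        convexHull_mono (subset_insert _ _) (a.image_convexHull s ▸ mem_image_of_mem _ hz)
      have h5 := (convex_convexHull ℝ _).add_smul_sub_mem
        (subset_convexHull ℝ _ (mem_insert x (a '' s))) h4 (t := t * φ w / r)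
        ⟨div_nonneg (mul_nonneg ht.1 hw'.1.le) hr.le,
          (div_le_one hr).2 (by nlinarith [ht.1, ht.2, hw'.1, hw'.2])⟩
      convert h5 using 2
      have h6 := hw'.1.ne'
      rw [ha, Submodule.coe_smul, hπ, smul_sub (r / φ w), smul_smul, div_mul_cancel₀ _ h6,
        show x + r • u + ((r / φ w) • w - r • u) - x = (r / φ w) • w by abel, smul_smul]
      congr 1
      field_simp
  choose! T hT hTA hTw using key
  obtain ⟨F, hF, hcov⟩ := (isCompact_sphere (0 : X) 1).elim_nhds_subcover _ hTw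
  refine ⟨insert {x} (⋃ u ∈ F, T u), (F.finite_toSet.biUnion fun u hu => hT u (hF u hu)).insert _,
    mem_of_superset (ball_mem_nhds x (half_pos hr)) fun y hy => ?_, ?_⟩
  · by_cases hyx : y = x
    · exact mem_biUnion (mem_insert _ _) (by simp [hyx])
    · have h0 : ‖y - x‖ ≠ 0 := by simpa [sub_eq_zero] using hyx
      obtain ⟨u, hu, hw⟩ := mem_iUnion₂.1 (hcov (a := ‖y - x‖⁻¹ • (y - x))
        (by simp [norm_smul, h0]))
      obtain ⟨s, hs, h1⟩ := mem_iUnion₂.1 (hw ‖y - x‖ ⟨norm_nonneg _, by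
        rw [← dist_eq_norm]; exact le_of_lt hy⟩)
      rw [smul_smul, mul_inv_cancel₀ h0, one_smul, add_sub_cancel] at h1
      exact mem_biUnion (mem_insert_of_mem _ (mem_biUnion hu hs)) h1
  · rintro s (rfl | hs)
    · exact ⟨finite_singleton _, by simpa using hx, AffineMap.const ℝ X (h x), by simp⟩
    · obtain ⟨u, hu, hs⟩ := mem_iUnion₂.1 hs
      exact hTA u (hF u hu) s hs

end Vale.Agent.N073
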