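import Vale.Agent.N073.Cone
import Vale.Agent.P073Y.An.Sk
import Vale.Agent.P073Z.Ax.Sk
import Vale.Agent.P073Z.SHELL.A
import Vale.Agent.P073Z.MAN.Ex
import Vale.Agent.P073Z.DISC2.Path

/-!
# Removal of isolated exceptional points of a piecewise linear homeomorphism

Around an exceptional point the map is replaced on a small cube by a filling given by the theorem
of Alexander; the filling is made cheap by a collapse in the target.
-/

open Set Metric Filter Topology MeasureTheory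
open scoped ENNReal NNReal

noncomputable section

namespace Vale.Agent.N073

open _root_.P073

/-- a collapse of a cube by a Lipschitz piecewise linear homeomorphism -/
theorem collapse (c : E3) {R σ : ℝ} (hσ : 0 < σ) (hσ1 : σ ≤ 1) :
    ∃ e : E3 ≃ₜ E3, ConicalOn e univ ∧ (∀ y y', ‖e y - e y'‖ ≤ 2 * ‖y - y'‖) ∧
      (∀ y, y ∉ ball c (2 * R) → e y = y) ∧ ∀ y ∈ closedBall c R, e y = c + σ • (y - c) := by
  set b : E3 → ℝ := fun y => max 0 (2 * R - ‖y - c‖) with hb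
  set ψ : E3 → E3 := fun y i => max (-b y) (min (y i - c i) (b y)) with hψ
  have hU : ConicalSet (univ : Set E3) := Sh.conicalSet_univ
  have hbc : Continuous b := by fun_prop
  have hb1 : ConicalOn b univ := by
    have h1 : ConicalOn (fun y : E3 => ‖y - c‖) univ :=
      Sh.conicalOn_norm_pi.comp ((conicalOn_id hU).sub (conicalOn_const c hU)) (mapsTo_univ _ _)
        (by fun_prop)
    exact (conicalOn_const 0 hU).rmax ((conicalOn_const _ hU).sub h1) (by fun_prop) (by fun_prop)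
  have hψ1 : ConicalOn ψ univ := fun x hx => conicalWithinAt_pi (hU x hx) fun i =>
    hb1.neg.rmax (((Sh.conicalOn_proj i).sub (conicalOn_const _ hU)).rmin hb1 (by fun_prop)
      (by fun_prop)) (by fun_prop) (by fun_prop) x hx
  have hbl : ∀ y y', |b y - b y'| ≤ ‖y - y'‖ := fun y y' => by
    refine (abs_max_sub_max_le_max _ _ _ _).trans (max_le (by simp) ?_)
    have := abs_norm_sub_norm_le (y' - c) (y - c)
    rw [sub_sub_sub_cancel_right, norm_sub_rev y' y] at this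
    simpa using this
  have hψl : ∀ y y', ‖ψ y - ψ y'‖ ≤ ‖y - y'‖ := fun y y' => by
    refine (pi_norm_le_iff_of_nonneg (norm_nonneg _)).2 fun i => ?_
    refine (abs_max_sub_max_le_max _ _ _ _).trans (max_le ?_
      ((abs_min_sub_min_le_max _ _ _ _).trans (max_le ?_ (hbl y y'))))
    · rw [neg_sub_neg, abs_sub_comm]; exact hbl y y'
    · rw [sub_sub_sub_cancel_right]; exact norm_le_pi_norm (y - y') i
  have h1σ : 0 ≤ 1 - σ := by linarith
  have happ : ApproximatesLinearOn (fun y => y - (1 - σ) • ψ y)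
      (ContinuousLinearEquiv.refl ℝ E3 : E3 →L[ℝ] E3) univ ⟨1 - σ, h1σ⟩ := fun x _ y _ => by
    rw [show x - (1 - σ) • ψ x - (y - (1 - σ) • ψ y) -
      (ContinuousLinearEquiv.refl ℝ E3 : E3 →L[ℝ] E3) (x - y) = -((1 - σ) • (ψ x - ψ y)) by
        simp only [ContinuousLinearEquiv.coe_refl, ContinuousLinearMap.id_apply, smul_sub]; abel,
      norm_neg, norm_smul, Real.norm_of_nonneg h1σ]
    exact mul_le_mul_of_nonneg_left (hψl x y) h1σ
  refine ⟨happ.toHomeomorph _ (Or.inr ?_), (conicalOn_id hU).sub (hψ1.const_smul _),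
    fun y y' => ?_, fun y hy => ?_, fun y hy => ?_⟩
  · simp only [ContinuousLinearEquiv.refl_symm, ContinuousLinearEquiv.coe_refl,
      ContinuousLinearMap.nnnorm_id, inv_one]
    exact NNReal.coe_lt_coe.1 (show 1 - σ < 1 by linarith)
  · change ‖y - (1 - σ) • ψ y - (y' - (1 - σ) • ψ y')‖ ≤ _
    rw [show y - (1 - σ) • ψ y - (y' - (1 - σ) • ψ y') = (y - y') - (1 - σ) • (ψ y - ψ y') by
      simp only [smul_sub]; abel]
    refine (norm_sub_le _ _).trans ?_
    rw [norm_smul, Real.norm_of_nonneg h1σ]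
    nlinarith [hψl y y', norm_nonneg (ψ y - ψ y'), norm_nonneg (y - y')]
  · change y - (1 - σ) • ψ y = y
    have h0 : b y = 0 := max_eq_left (by
      rw [mem_ball_iff_norm, not_lt] at hy
      linarith)
    have : ψ y = 0 := by ext i; simp [hψ, h0]
    simp [this]
  · change y - (1 - σ) • ψ y = _
    have h1 := mem_closedBall_iff_norm.1 hy
    have : ψ y = y - c := by
      ext i
      have h2 : |y i - c i| ≤ b y :=
        (norm_le_pi_norm (y - c) i).trans (le_max_of_le_right (by linarith))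
      simp only [hψ, Pi.sub_apply]
      rw [min_eq_left (abs_le.1 h2).2, max_eq_right (abs_le.1 h2).1]
    rw [this]
    module

theorem cont_glue {S T : Type} [TopologicalSpace S] [TopologicalSpace T] {k g h : S → T}
    {Ω A B : Set S} (hA : IsClosed A) (hB : IsOpen B) (hBA : B ⊆ A) (hg : ContinuousOn g A)
    (hh : ContinuousOn h Ω) (e1 : EqOn k g A) (e2 : ∀ x, x ∉ B → k x = h x) :
    ContinuousOn k Ω := by
  intro x hx
  have h1 : ContinuousWithinAt k A x := by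
    by_cases hxA : x ∈ A
    · exact (hg.congr e1) x hxA
    · exact continuousWithinAt_of_notMem_closure (by rwa [hA.closure_eq])
  have h2 : ContinuousWithinAt k (Ω \ B) x := by
    by_cases hxB : x ∈ B
    · exact continuousWithinAt_of_notMem_closure fun h0 =>
        closure_minimal (fun y hy => hy.2) hB.isClosed_compl h0 hxB
    · exact ((hh.mono sdiff_subset).congr fun y hy => e2 y hy.2) x ⟨hx, hxB⟩
  refine (h1.union h2).mono fun y hy => ?_
  by_cases hyB : y ∈ B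
  exacts [Or.inl (hBA hyB), Or.inr ⟨hy, hyB⟩]

theorem lip_of_conical {k : E3 → E3} {V : Set E3} (hV : IsOpen V)
    (hk : ∀ x ∈ V, ConicalWithinAt k univ x) : LocallyLipschitzOn V k := fun x hx => by
  obtain ⟨L, W, hW, hL⟩ := (vpa_of_cone _ E3 rfl k V hV (fun y hy =>
    (hk y hy).imp fun r hr => ⟨hr.1, fun v hv t ht => (hr.2 v hv trivial t ht).2⟩) x hx).lip
  exact ⟨L, W, mem_nhdsWithin_of_mem_nhds hW, hL⟩

/-- the filling of a cube -/
theorem filling (hA : Ax.ALEX) {Ω Λ V : Set E3} {h h' : E3 → E3} {z : E3} {ρ : ℝ}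
    (hΛ : IsOpen Λ) (hh : HomeoOn h h' Ω Λ) (hρ : 0 < ρ) (hQΩ : closedBall z ρ ⊆ Ω)
    (hc : ∀ x ∈ V, x ≠ z → ConicalWithinAt h univ x) (hQV : closedBall z ρ ⊆ V) :
    ∃ k k' : E3 → E3, HomeoOn k k' Ω Λ ∧ (∀ x, x ∉ ball z ρ → k x = h x) ∧
      MapsTo k (closedBall z ρ) (h '' closedBall z ρ) ∧ ∀ x ∈ V, ConicalWithinAt k univ x := by
  classical
  have hinj : InjOn h Ω := hh.left_inv.injOn
  have hsΩ : sphere z ρ ⊆ Ω := sphere_subset_closedBall.trans hQΩ
  have hbΩ : ball z ρ ⊆ Ω := ball_subset_closedBall.trans hQΩ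
  have hz : ∀ x, x ∉ ball z ρ → x ≠ z := fun x hx e => hx (e ▸ mem_ball_self hρ)
  have hQ := conBall_closedBall z hρ
  set φ : ConHomeo (sphere z ρ) (h '' sphere z ρ) := ConHomeo.ofCompact (isCompact_sphere z ρ) h
    (hh.cont.mono hsΩ) (hinj.mono hsΩ) (fun x hx =>
      (hc x (hQV (sphere_subset_closedBall hx)) (hz x fun h0 => (mem_ball.1 h0).ne hx)).mono_set
        (hQ.conicalSet_bdry x hx) (subset_univ _)) rfl with hφ
  have hφh : φ.toFun = h := ConHomeo.ofCompact_toFun ..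
  have hB := hA (hQ.conSphere.elim fun α => ⟨φ.symm.trans α⟩)
  have hG : IsOpen (h '' ball z ρ) := by
    have : h '' ball z ρ = Λ ∩ h' ⁻¹' ball z ρ := by
      ext y
      constructor
      · rintro ⟨x, hx, rfl⟩
        exact ⟨hh.mapsTo (hbΩ hx), by rwa [mem_preimage, hh.left_inv (hbΩ hx)]⟩
      · exact fun hy => ⟨_, hy.2, hh.right_inv hy.1⟩
    rw [this]
    exact hh.cont_inv.isOpen_inter_preimage hΛ isOpen_ball
  have hK : IsCompact (h '' closedBall z ρ) :=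
    (isCompact_closedBall z ρ).image_of_continuousOn (hh.cont.mono hQΩ)
  have hGK : h '' ball z ρ ⊆ h '' closedBall z ρ := image_mono ball_subset_closedBall
  have hsplit : ∀ y ∈ h '' closedBall z ρ, y ∉ h '' ball z ρ → y ∈ h '' sphere z ρ := by
    rintro _ ⟨x, hx, rfl⟩ h0
    exact ⟨x, le_antisymm hx (not_lt.1 fun h1 => h0 ⟨x, h1, rfl⟩), rfl⟩
  have hside : ∀ T : Set E3, IsPreconnected T → T ⊆ (h '' sphere z ρ)ᶜ →
      (T ∩ h '' ball z ρ).Nonempty → T ⊆ h '' ball z ρ := fun T hT hTS hne =>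
    hT.subset_left_of_subset_union hG hK.isClosed.isOpen_compl
      (disjoint_compl_right.mono_left hGK) (fun y hy => by
        by_contra h0
        rw [mem_union, not_or, notMem_compl_iff] at h0
        exact hTS hy (hsplit y h0.2 h0.1)) hne
  have hGI : h '' ball z ρ ⊆ Inside (h '' sphere z ρ) := fun y hy => by
    have h1 : y ∉ h '' sphere z ρ := by
      obtain ⟨x, hx, rfl⟩ := hy
      rintro ⟨x', hx', e⟩
      exact (mem_ball.1 hx).ne (hinj (hsΩ hx') (hbΩ hx) e ▸ hx')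
    exact ⟨h1, hK.isBounded.subset ((hside _ isPreconnected_connectedComponentIn
      (connectedComponentIn_subset _ _) ⟨y, mem_connectedComponentIn h1, hy⟩).trans hGK)⟩
  have hBK : h '' sphere z ρ ∪ Inside (h '' sphere z ρ) = h '' closedBall z ρ := by
    refine Subset.antisymm (fun y hy => ?_) fun y hy => ?_
    · by_cases h0 : y ∈ h '' sphere z ρ
      · exact image_mono sphere_subset_closedBall h0
      · have h1 := mem_image_of_mem h (mem_ball_self (x := z) hρ)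
        exact hGK (hside _ hB.isConnected_int.isPreconnected (fun _ h2 => h2.2)
          ⟨h z, ⟨Or.inr (hGI h1), (hGI h1).1⟩, h1⟩ ⟨hy, h0⟩)
    · by_cases h0 : y ∈ h '' ball z ρ
      exacts [Or.inr (hGI h0), Or.inl (hsplit y hy h0)]
  rw [hBK] at hB
  obtain ⟨g, hg, -⟩ := hQ.exists_extend hB φ
  rw [hφh] at hg
  set k := (closedBall z ρ).piecewise g.toFun h with hk
  set k' := (h '' closedBall z ρ).piecewise g.invFun h' with hk'
  have k1 : EqOn k g.toFun (closedBall z ρ) := fun x hx => piecewise_eq_of_mem _ _ _ hx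
  have k2 : ∀ x, x ∉ ball z ρ → k x = h x := fun x hx => by
    by_cases hxQ : x ∈ closedBall z ρ
    · rw [k1 hxQ, hg (le_antisymm hxQ (not_lt.1 hx))]
    · exact piecewise_eq_of_notMem _ _ _ hxQ
  have k3 : EqOn k' g.invFun (h '' closedBall z ρ) := fun x hx => piecewise_eq_of_mem _ _ _ hx
  have k4 : ∀ y, y ∉ h '' ball z ρ → k' y = h' y := fun y hy => by
    by_cases hyK : y ∈ h '' closedBall z ρ
    · obtain ⟨x, hx, rfl⟩ := hsplit y hyK hy
      rw [k3 hyK, hh.left_inv (hsΩ hx), ← hg hx, g.left_inv (sphere_subset_closedBall hx)]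
    · exact piecewise_eq_of_notMem _ _ _ hyK
  have hKΛ : h '' closedBall z ρ ⊆ Λ := (hh.mapsTo.mono_left hQΩ).image_subset
  refine ⟨k, k', ⟨fun x hx => ?_, fun y hy => ?_, fun x hx => ?_, fun y hy => ?_,
    cont_glue isClosed_closedBall isOpen_ball ball_subset_closedBall g.cont hh.cont k1 k2,
    cont_glue hK.isClosed hG hGK g.cont_inv hh.cont_inv k3 k4⟩, k2,
    fun x hx => k1 hx ▸ g.mapsTo hx, fun x hx => ?_⟩
  · by_cases hxQ : x ∈ closedBall z ρ
    · rw [k1 hxQ]; exact hKΛ (g.mapsTo hxQ)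
    · rw [k2 x fun h0 => hxQ (ball_subset_closedBall h0)]; exact hh.mapsTo hx
  · by_cases hyK : y ∈ h '' closedBall z ρ
    · rw [k3 hyK]; exact hQΩ (g.mapsTo_inv hyK)
    · rw [k4 y fun h0 => hyK (hGK h0)]; exact hh.mapsTo_inv hy
  · by_cases hxQ : x ∈ closedBall z ρ
    · rw [k1 hxQ, k3 (g.mapsTo hxQ), g.left_inv hxQ]
    · rw [k2 x fun h0 => hxQ (ball_subset_closedBall h0), k4, hh.left_inv hx]
      rintro ⟨x', hx', e⟩
      exact hxQ (ball_subset_closedBall (hinj (hbΩ hx') hx e ▸ hx'))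
  · by_cases hyK : y ∈ h '' closedBall z ρ
    · rw [k3 hyK, k1 (g.mapsTo_inv hyK), g.right_inv hyK]
    · rw [k4 y fun h0 => hyK (hGK h0), k2, hh.right_inv hy]
      exact fun h0 => hyK ⟨_, ball_subset_closedBall h0, hh.right_inv hy⟩
  · by_cases hxb : x ∈ ball z ρ
    · have h1 : closedBall z ρ ∈ 𝓝 x := mem_of_superset (isOpen_ball.mem_nhds hxb)
        ball_subset_closedBall
      exact ((g.conical.congr k1) x (ball_subset_closedBall hxb)).of_mem_nhds h1
    by_cases hxQ : x ∈ closedBall z ρ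
    · obtain ⟨r1, hr1, h1⟩ := (g.conical.congr k1) x hxQ
      obtain ⟨r2, hr2, h2⟩ := hc x hx (hz x hxb)
      obtain ⟨r3, hr3, h3⟩ : LocConeAt (closedBall z ρ) x := by
        rw [closedBall_pi z hρ.le]
        simp only [Real.closedBall_eq_Icc, pi_univ_Icc]
        exact locCone_Icc_pi _ _ x
      refine ⟨min r1 (min r2 r3), by positivity, fun v hv _ t ht => ⟨trivial, ?_⟩⟩
      simp only [le_min_iff] at hv
      by_cases hxv : x + v ∈ closedBall z ρ
      · exact (h1 v hv.1 hxv t ht).2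
      · rcases ht.1.eq_or_lt with rfl | h0
        · simp
        · rw [k2 x hxb, k2 _ fun h4 => hxv (ball_subset_closedBall h4), k2 _ fun h4 =>
            hxv ((h3 v hv.2.2 t ⟨h0, ht.2⟩).1 (ball_subset_closedBall h4))]
          exact (h2 v hv.2.1 trivial t ht).2
    · refine (hc x hx (hz x hxb)).congr_nhds (by simp) ?_ (k2 x hxb)
      filter_upwards [isClosed_closedBall.isOpen_compl.mem_nhds hxQ] with y hy _
      exact k2 y fun h0 => hy (ball_subset_closedBall h0)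

/-- removal of one exceptional point -/
theorem local_fix (hA : Ax.ALEX) {Ω Λ V N : Set E3} {h h' : E3 → E3} {z : E3} (hΩ : IsOpen Ω)
    (hΛ : IsOpen Λ) (hh : HomeoOn h h' Ω Λ) (hV : IsOpen V) (hVΩ : V ⊆ Ω) (hzV : z ∈ V)
    (hc : ∀ x ∈ V, x ≠ z → ConicalWithinAt h univ x) (hN : N ∈ 𝓝 z) :
    ∃ k k' : E3 → E3, HomeoOn k k' Ω Λ ∧ (∀ x ∈ Ω, x ∉ N → k x = h x) ∧
      (∀ x ∈ V, ConicalWithinAt k univ x) ∧
      ∀ x, ∀ᶠ y in 𝓝 x, ‖k y - k x‖ ≤ 2 * ‖h y - h x‖ + ‖y - x‖ := by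
  have hz := hVΩ hzV
  have h1 : Λ ∩ h' ⁻¹' N ∈ 𝓝 (h z) := inter_mem (hΛ.mem_nhds (hh.mapsTo hz))
    ((hh.cont_inv.continuousAt (hΛ.mem_nhds (hh.mapsTo hz))).preimage_mem_nhds
      (by rwa [hh.left_inv hz]))
  obtain ⟨R2, hR2, hR⟩ := Metric.mem_nhds_iff.1 h1
  have h2 : V ∩ N ∩ h ⁻¹' closedBall (h z) (R2 / 2) ∈ 𝓝 z :=
    inter_mem (inter_mem (hV.mem_nhds hzV) hN) ((hh.cont.continuousAt
      (hΩ.mem_nhds hz)).preimage_mem_nhds (closedBall_mem_nhds _ (half_pos hR2)))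
  obtain ⟨ρ, hρ, hQ⟩ := nhds_basis_closedBall.mem_iff.1 h2
  have hQV : closedBall z ρ ⊆ V := fun x hx => (hQ hx).1.1
  obtain ⟨k, k', hk, k2, k3, k4⟩ := filling hA hΛ hh hρ (hQV.trans hVΩ) hc hQV
  obtain ⟨L, hL⟩ := ((lip_of_conical hV k4).mono hQV).exists_lipschitzOnWith_of_compact
    (isCompact_closedBall z ρ)
  obtain ⟨e, e1, e2, e3, e4⟩ := collapse (h z) (R := R2 / 2) (σ := 1 / (L + 1)) (by positivity)
    ((div_le_one (by positivity)).2 (by simp))
  rw [mul_div_cancel₀ _ two_ne_zero] at e3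
  have e5 : ∀ y, y ∉ Λ → e y = y := fun y hy => e3 y fun h0 => hy (hR h0).1
  have e6 : MapsTo e Λ Λ := fun y hy => by
    by_contra h0
    exact h0 ((e.injective (e5 _ h0)).symm ▸ hy)
  have e7 : MapsTo e.symm Λ Λ := fun y hy => by
    by_contra h0
    have := e5 _ h0
    rw [e.apply_symm_apply] at this
    exact h0 (this ▸ hy)
  have hkb : ∀ x ∈ closedBall z ρ, k x ∈ closedBall (h z) (R2 / 2) := fun x hx => by
    obtain ⟨x', hx', h3⟩ := k3 hx
    exact h3 ▸ (hQ hx').2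
  refine ⟨e ∘ k, k' ∘ e.symm, ⟨e6.comp hk.mapsTo, hk.mapsTo_inv.comp e7,
    fun x hx => by simp [hk.left_inv hx], fun y hy => by simp [hk.right_inv (e7 hy)],
    e.continuous.comp_continuousOn hk.cont,
    hk.cont_inv.comp e.symm.continuous.continuousOn e7⟩, fun x hx hxN => ?_, fun x hx => ?_,
    fun x => ?_⟩
  · rw [Function.comp_apply, k2 x fun h0 => hxN (hQ (ball_subset_closedBall h0)).1.2]
    refine e3 _ fun h0 => hxN ?_
    have := (hR h0).2
    rwa [mem_preimage, hh.left_inv hx] at this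
  · exact (e1 _ trivial).comp (k4 x hx) (mapsTo_univ _ _)
      (hk.cont.continuousAt (hΩ.mem_nhds (hVΩ hx))).continuousWithinAt
  · have h3 : ∀ y ∈ closedBall z ρ, x ∈ closedBall z ρ →
        ‖(e ∘ k) y - (e ∘ k) x‖ ≤ 2 * ‖h y - h x‖ + ‖y - x‖ := fun y hy hx => by
      have h4 := hL.norm_sub_le hy hx
      simp only [Function.comp_apply]
      rw [e4 _ (hkb y hy), e4 _ (hkb x hx), add_sub_add_left_eq_sub, ← smul_sub,
        sub_sub_sub_cancel_right, norm_smul, Real.norm_of_nonneg (by positivity), one_div,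
        inv_mul_eq_div]
      refine ((div_le_iff₀ (by positivity)).2 ?_).trans (le_add_of_nonneg_left (by positivity))
      nlinarith [norm_nonneg (y - x)]
    by_cases hxb : x ∈ ball z ρ
    · filter_upwards [isOpen_ball.mem_nhds hxb] with y hy
      exact h3 y (ball_subset_closedBall hy) (ball_subset_closedBall hxb)
    · have h4 : ∀ᶠ y in 𝓝 x, y ∈ closedBall z ρ → x ∈ closedBall z ρ := by
        by_cases hxQ : x ∈ closedBall z ρ
        · exact Eventually.of_forall fun _ _ => hxQ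
        · filter_upwards [isClosed_closedBall.isOpen_compl.mem_nhds hxQ] with y hy h5
            using absurd h5 hy
      filter_upwards [h4] with y hy
      by_cases hyQ : y ∈ closedBall z ρ
      · exact h3 y hyQ (hy hyQ)
      · simp only [Function.comp_apply]
        rw [k2 x hxb, k2 y fun h0 => hyQ (ball_subset_closedBall h0)]
        exact (e2 _ _).trans (le_add_of_nonneg_right (norm_nonneg _))

/-- simultaneous modifications in disjoint open sets -/
theorem patch {S T : Type} [TopologicalSpace S] [TopologicalSpace T] {Ω Z : Set S} {Λ : Set T}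
    {h : S → T} {h' : T → S} {k : S → S → T} {k' : S → T → S} {W N : S → Set S}
    (hh : HomeoOn h h' Ω Λ) (hk : ∀ z ∈ Z, HomeoOn (k z) (k' z) Ω Λ)
    (hW : ∀ z ∈ Z, ∀ x ∈ Ω, x ∉ W z → k z x = h x) (hWN : ∀ z ∈ Z, W z ⊆ N z)
    (hN : ∀ z, IsOpen (N z)) (hd : ∀ z ∈ Z, ∀ z' ∈ Z, ∀ x ∈ N z, x ∈ N z' → z = z')
    (hloc : ∀ x ∈ Ω, (∀ z ∈ Z, x ∉ N z) → ∀ᶠ y in 𝓝 x, ∀ z ∈ Z, y ∉ W z) :
    ∃ (H : S → T) (H' : T → S), HomeoOn H H' Ω Λ ∧ (∀ z ∈ Z, EqOn H (k z) (N z)) ∧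
      (∀ x ∈ Ω, (∀ z ∈ Z, x ∉ W z) → H x = h x) ∧ ∀ z ∈ Z, ∀ x ∈ Ω, x ∈ N z → h' (H x) ∈ N z := by
  classical
  set H : S → T := fun x => if hx : ∃ z ∈ Z, x ∈ N z then k hx.choose x else h x with hH
  set H' : T → S := fun y => if hy : ∃ z ∈ Z, h' y ∈ N z then k' hy.choose y else h' y with hH'
  have a1 : ∀ z ∈ Z, ∀ x ∈ N z, H x = k z x := fun z hz x hx => by
    have h0 : ∃ z ∈ Z, x ∈ N z := ⟨z, hz, hx⟩
    simp only [hH, dif_pos h0]
    rw [← hd z hz _ h0.choose_spec.1 x hx h0.choose_spec.2]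
  have a2 : ∀ z ∈ Z, ∀ y, h' y ∈ N z → H' y = k' z y := fun z hz y hy => by
    have h0 : ∃ z ∈ Z, h' y ∈ N z := ⟨z, hz, hy⟩
    simp only [hH', dif_pos h0]
    rw [← hd z hz _ h0.choose_spec.1 _ hy h0.choose_spec.2]
  have a3 : ∀ x ∈ Ω, (∀ z ∈ Z, x ∉ W z) → H x = h x := fun x hx h1 => by
    by_cases h0 : ∃ z ∈ Z, x ∈ N z
    · obtain ⟨z, hz, hxz⟩ := h0
      rw [a1 z hz x hxz, hW z hz x hx (h1 z hz)]
    · exact dif_neg h0
  have a4 : ∀ y ∈ Λ, (∀ z ∈ Z, h' y ∉ W z) → H' y = h' y := fun y hy h1 => by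
    by_cases h0 : ∃ z ∈ Z, h' y ∈ N z
    · obtain ⟨z, hz, hyz⟩ := h0
      rw [a2 z hz y hyz, ← (hk z hz).left_inv (hh.mapsTo_inv hy),
        hW z hz _ (hh.mapsTo_inv hy) (h1 z hz), hh.right_inv hy]
    · exact dif_neg h0
  have b1 : ∀ z ∈ Z, ∀ x ∈ Ω, x ∈ N z → h' (k z x) ∈ N z := fun z hz x hx hxz => by
    by_contra h0
    have h1 := (hk z hz).mapsTo hx
    have h2 := hW z hz _ (hh.mapsTo_inv h1) fun h3 => h0 (hWN z hz h3)
    rw [hh.right_inv h1] at h2
    exact h0 (by rw [(hk z hz).left_inv.injOn (hh.mapsTo_inv h1) hx h2]; exact hxz)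
  have b2 : ∀ z ∈ Z, ∀ y ∈ Λ, h' y ∈ N z → k' z y ∈ N z := fun z hz y hy hyz => by
    by_contra h0
    have h1 := (hk z hz).mapsTo_inv hy
    have h2 := hW z hz _ h1 fun h3 => h0 (hWN z hz h3)
    rw [(hk z hz).right_inv hy] at h2
    rw [h2, hh.left_inv h1] at hyz
    exact h0 hyz
  have c : ∀ x, (∃ z ∈ Z, x ∈ N z) ∨ ((∀ z ∈ Z, x ∉ N z) ∧ ∀ z ∈ Z, x ∉ W z) := fun x => by
    by_cases h0 : ∃ z ∈ Z, x ∈ N z
    · exact Or.inl h0
    · push Not at h0
      exact Or.inr ⟨h0, fun z hz h1 => h0 z hz (hWN z hz h1)⟩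
  refine ⟨H, H', ⟨fun x hx => ?_, fun y hy => ?_, fun x hx => ?_, fun y hy => ?_, fun x hx => ?_,
    fun y hy => ?_⟩, a1, a3, fun z hz x hx hxz => by rw [a1 z hz x hxz]; exact b1 z hz x hx hxz⟩
  · rcases c x with ⟨z, hz, h1⟩ | h1
    · rw [a1 z hz x h1]; exact (hk z hz).mapsTo hx
    · rw [a3 x hx h1.2]; exact hh.mapsTo hx
  · rcases c (h' y) with ⟨z, hz, h1⟩ | h1
    · rw [a2 z hz y h1]; exact (hk z hz).mapsTo_inv hy
    · rw [a4 y hy h1.2]; exact hh.mapsTo_inv hy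
  · rcases c x with ⟨z, hz, h1⟩ | h1
    · rw [a1 z hz x h1, a2 z hz _ (b1 z hz x hx h1), (hk z hz).left_inv hx]
    · rw [a3 x hx h1.2, a4 _ (hh.mapsTo hx) (by rw [hh.left_inv hx]; exact h1.2), hh.left_inv hx]
  · rcases c (h' y) with ⟨z, hz, h1⟩ | h1
    · rw [a2 z hz y h1, a1 z hz _ (b2 z hz y hy h1), (hk z hz).right_inv hy]
    · rw [a4 y hy h1.2, a3 _ (hh.mapsTo_inv hy) h1.2, hh.right_inv hy]
  · rcases c x with ⟨z, hz, h1⟩ | h1
    · refine ((hk z hz).cont x hx).congr_of_eventuallyEq ?_ (a1 z hz x h1)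
      filter_upwards [mem_nhdsWithin_of_mem_nhds ((hN z).mem_nhds h1)] with y hy using a1 z hz y hy
    · refine (hh.cont x hx).congr_of_eventuallyEq ?_ (a3 x hx h1.2)
      filter_upwards [mem_nhdsWithin_of_mem_nhds (hloc x hx h1.1), self_mem_nhdsWithin]
        with y hy hyΩ using a3 y hyΩ hy
  · rcases c (h' y) with ⟨z, hz, h1⟩ | h1
    · refine ((hk z hz).cont_inv y hy).congr_of_eventuallyEq ?_ (a2 z hz y h1)
      filter_upwards [(hh.cont_inv y hy).eventually ((hN z).mem_nhds h1)] with w hw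
        using a2 z hz w hw
    · refine (hh.cont_inv y hy).congr_of_eventuallyEq ?_ (a4 y hy h1.2)
      filter_upwards [(hh.cont_inv y hy).eventually (hloc _ (hh.mapsTo_inv hy) h1.1),
        self_mem_nhdsWithin] with w hw hwΛ using a4 w hwΛ hw

theorem pow_le {p : ℝ} (hp : 0 ≤ p) {A B F : An.M3} (h : ‖A‖ ≤ 2 * ‖B‖ + 3) :
    ‖A - F‖ₑ ^ p ≤ 9 ^ p * (‖B - F‖ₑ ^ p + ‖F‖ₑ ^ p + 1) := by
  have h1 : ‖A - F‖ ≤ 9 * max (max ‖B - F‖ ‖F‖) 1 := by
    have h2 := norm_sub_le A F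
    have h3 := norm_add_le (B - F) F
    rw [sub_add_cancel] at h3
    have h4 := le_max_left (max ‖B - F‖ ‖F‖) 1
    linarith [le_max_left ‖B - F‖ ‖F‖, le_max_right ‖B - F‖ ‖F‖,
      le_max_right (max ‖B - F‖ ‖F‖) 1]
  have h2 : ‖A - F‖ₑ ≤ 9 * max (max ‖B - F‖ₑ ‖F‖ₑ) 1 := by
    rw [← ofReal_norm, ← ofReal_norm, ← ofReal_norm]
    refine (ENNReal.ofReal_le_ofReal h1).trans_eq ?_
    rw [ENNReal.ofReal_mul (by norm_num), ENNReal.ofReal_max, ENNReal.ofReal_max]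
    simp
  refine (ENNReal.rpow_le_rpow h2 hp).trans ?_
  rw [ENNReal.mul_rpow_of_nonneg _ _ hp, ENNReal.max_rpow hp, ENNReal.max_rpow hp,
    ENNReal.one_rpow]
  gcongr
  exact max_le ((max_le le_self_add le_add_self).trans le_self_add) le_add_self

/-- the everywhere conical approximation for exponents below two -/
theorem pla0_of_pla (hA : Ax.ALEX) (hP : PLA) {p : ℝ} (h1 : 1 ≤ p) (h2 : p < 2) : An.PLA0 p := by
  intro Ω Λ f f' F ε hΩ hΛ cΩ cΛ bΩ bΛ hε hf hFm hFi hw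
  have hp0 : 0 ≤ p := by linarith
  obtain ⟨h, h', Z, hh, hZ, hc, hcl, hen⟩ := hP hΩ hΛ cΩ cΛ bΩ bΛ h1 h2 (half_pos hε) hf hFm hFi hw
  have hZ0 : volume Z = 0 := measure_null_of_locally_null Z fun x hx => by
    obtain ⟨U, hU, hfin⟩ := hZ.2 x (hZ.1 hx)
    exact ⟨Z ∩ U, inter_mem_nhdsWithin Z hU, hfin.measure_zero _⟩
  have hU : IsOpen (Ω \ Z) := by
    rw [isOpen_iff_mem_nhds]
    intro x hx
    obtain ⟨U, hU, hfin⟩ := hZ.2 x hx.1
    filter_upwards [hΩ.mem_nhds hx.1, hU, hfin.isClosed.isOpen_compl.mem_nhds fun h0 => hx.2 h0.1]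
      with y hy hyU hy1 using ⟨hy, fun hz => hy1 ⟨hz, hyU⟩⟩
  have hc' : ∀ x ∈ Ω \ Z, ConicalWithinAt h univ x := fun x hx =>
    (hc x hx).of_mem_nhds (hU.mem_nhds hx)
  have hdiff : volume {x | x ∈ Ω \ Z ∧ ¬ DifferentiableAt ℝ h x} = 0 :=
    measure_null_of_locally_null _ fun x hx => by
      obtain ⟨L, V, hV, hL⟩ := lip_of_conical hU hc' hx.1
      rw [hU.nhdsWithin_eq hx.1] at hV
      refine ⟨_, inter_mem_nhdsWithin _ (interior_mem_nhds.2 hV), measure_mono_null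
        (t := {y | ¬ (y ∈ V → DifferentiableWithinAt ℝ h V y)}) (fun y hy h0 => hy.1.2 ?_)
        (ae_iff.1 (hL.ae_differentiableWithinAt_of_mem (μ := volume)))⟩
      exact (h0 (interior_subset hy.2)).differentiableAt (mem_interior_iff_mem_nhds.1 hy.2)
  set u : E3 → ℝ≥0∞ := fun x => 9 ^ p * (‖fderiv ℝ h x - F x‖ₑ ^ p + ‖F x‖ₑ ^ p + 1) with hu
  have h9 : (9 : ℝ≥0∞) ^ p ≠ ⊤ := ENNReal.rpow_ne_top_of_nonneg hp0 (by norm_num)
  have hui : ∫⁻ x in Ω, u x ≠ ⊤ := by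
    rw [lintegral_const_mul' _ _ h9, lintegral_add_right _ measurable_const,
      lintegral_add_right' _ (hFm.enorm.pow_const p), setLIntegral_const, one_mul]
    exact ENNReal.mul_ne_top h9 (ENNReal.add_ne_top.2 ⟨ENNReal.add_ne_top.2
      ⟨(hen.trans ENNReal.ofReal_lt_top).ne, hFi.ne⟩, bΩ.measure_lt_top.ne⟩)
  obtain ⟨δ, hδ, hδu⟩ := exists_pos_setLIntegral_lt_of_measure_lt hui
    (ENNReal.ofReal_pos.2 (half_pos hε)).ne'
  obtain ⟨O, hZO, hO, hOδ⟩ := Set.exists_isOpen_lt_of_lt Z δ (hZ0 ▸ hδ)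
  have hr : ∀ z ∈ Z, ∃ r > 0, ball z (2 * r) ⊆
      (Z \ {z})ᶜ ∩ Ω ∩ O ∩ h ⁻¹' ball (h z) (ε / 4) := fun z hz => by
    obtain ⟨U, hU, hfin⟩ := hZ.2 z (hZ.1 hz)
    have h3 : (Z \ {z})ᶜ ∈ 𝓝 z := by
      filter_upwards [hU, (hfin.sdiff (t := {z})).isClosed.isOpen_compl.mem_nhds
        fun h0 => h0.2 rfl] with y hy h4 h5 using h4 ⟨⟨h5.1, hy⟩, h5.2⟩
    obtain ⟨r, hr, h4⟩ := Metric.mem_nhds_iff.1 (inter_mem (inter_mem (inter_mem h3
      (hΩ.mem_nhds (hZ.1 hz))) (hO.mem_nhds (hZO hz))) ((hh.cont.continuousAt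
        (hΩ.mem_nhds (hZ.1 hz))).preimage_mem_nhds (ball_mem_nhds _ (by positivity : 0 < ε / 4))))
    exact ⟨r / 2, half_pos hr, by rwa [mul_div_cancel₀ _ two_ne_zero]⟩
  choose! r hr hrb using hr
  have hrb' : ∀ z ∈ Z, ∀ x ∈ ball z (r z), x ∈ _ := fun z hz x hx =>
    hrb z hz (ball_subset_ball (by linarith [hr z hz]) hx)
  choose! k k' hk hkW hkc hkl using fun z (hz : z ∈ Z) => local_fix hA hΩ hΛ hh
    (V := ball z (r z)) isOpen_ball (fun x hx => (hrb' z hz x hx).1.1.2) (mem_ball_self (hr z hz))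
    (fun x hx hxz => hc' x ⟨(hrb' z hz x hx).1.1.2, fun h0 => (hrb' z hz x hx).1.1.1 ⟨h0, hxz⟩⟩)
    (ball_mem_nhds z (half_pos (hr z hz)))
  have hloc : ∀ x ∈ Ω, (∀ z ∈ Z, x ∉ ball z (r z)) →
      ∀ᶠ y in 𝓝 x, ∀ z ∈ Z, y ∉ ball z (r z / 2) := fun x hx h0 => by
    obtain ⟨U, hU, hfin⟩ := hZ.2 x hx
    obtain ⟨ρ, hρ, hρU⟩ := Metric.mem_nhds_iff.1 hU
    have h3 : ∀ z ∈ Z, ∀ y ∈ ball z (r z / 2), r z / 2 ≤ dist y x ∧ dist z x / 2 ≤ dist y x :=
      fun z hz y hy => by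
        have h4 := h0 z hz
        rw [mem_ball', not_lt] at h4
        rw [mem_ball'] at hy
        constructor <;> linarith [dist_triangle z y x]
    filter_upwards [ball_mem_nhds x (half_pos hρ), (hfin.eventually_all (p := fun z y =>
      y ∈ ball x (r z / 2))).2 fun z hz => ball_mem_nhds x (half_pos (hr z hz.1))]
      with y hy hy' z hz hyz
    by_cases hzU : z ∈ U
    · exact (h3 z hz y hyz).1.not_gt (hy' z ⟨hz, hzU⟩)
    · have h4 : ρ ≤ dist z x := not_lt.1 fun h5 => hzU (hρU h5)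
      linarith [(h3 z hz y hyz).2, mem_ball.1 hy]
  obtain ⟨H, H', hH, H1, H2, H3⟩ := patch (N := fun z => ball z (r z)) hh hk hkW
    (fun z hz => ball_subset_ball (by linarith [hr z hz])) (fun _ => isOpen_ball)
    (fun z hz z' hz' x hx hx' => by
      by_contra h0
      have h3 := dist_triangle_left z z' x
      rw [mem_ball] at hx hx'
      rcases le_total (r z) (r z') with h4 | h4
      · exact (hrb z' hz' (mem_ball.2 (by linarith))).1.1.1 ⟨hz, h0⟩
      · exact (hrb z hz (mem_ball'.2 (by linarith))).1.1.1 ⟨hz', Ne.symm h0⟩) hloc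
  have c : ∀ x ∈ Ω, (∃ z ∈ Z, x ∈ ball z (r z) ∧ H =ᶠ[𝓝 x] k z) ∨ (x ∉ Z ∧ H =ᶠ[𝓝 x] h) :=
    fun x hx => by
      by_cases h0 : ∃ z ∈ Z, x ∈ ball z (r z)
      · obtain ⟨z, hz, hxz⟩ := h0
        exact Or.inl ⟨z, hz, hxz, eventually_of_mem (isOpen_ball.mem_nhds hxz) (H1 z hz)⟩
      · push Not at h0
        refine Or.inr ⟨fun hz => h0 x hz (mem_ball_self (hr x hz)), ?_⟩
        filter_upwards [hloc x hx h0, hΩ.mem_nhds hx] with y hy hyΩ using H2 y hyΩ hy
  refine ⟨H, H', hH, fun x hx => ?_, fun x hx => ?_, ?_⟩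
  · refine ConicalWithinAt.mono_set (X := univ) ?_ (conicalSetAt_of_mem_nhds (hΩ.mem_nhds hx))
      (subset_univ _)
    rcases c x hx with ⟨z, hz, hxz, e⟩ | ⟨hxZ, e⟩
    · exact (hkc z hz x hxz).congr_nhds (by simp) (e.mono fun _ h3 _ => h3) e.self_of_nhds
    · exact (hc' x ⟨hx, hxZ⟩).congr_nhds (by simp) (e.mono fun _ h3 _ => h3) e.self_of_nhds
  · have h3 : dist (H x) (h x) ≤ ε / 2 := by
      rcases c x hx with ⟨z, hz, hxz, -⟩ | ⟨-, e⟩
      · have h4 : h (h' (H x)) ∈ ball (h z) (ε / 4) := (hrb' z hz _ (H3 z hz x hx hxz)).2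
        have h5 : h x ∈ ball (h z) (ε / 4) := (hrb' z hz x hxz).2
        rw [hh.right_inv (hH.mapsTo hx)] at h4
        linarith [dist_triangle_right (H x) (h x) (h z), mem_ball.1 h4, mem_ball.1 h5]
      · rw [e.self_of_nhds, dist_self]; positivity
    linarith [dist_triangle (H x) (h x) (f x), hcl x hx]
  · have h3 : ∀ᵐ x ∂(volume.restrict Ω), ‖fderiv ℝ H x - F x‖ₑ ^ p ≤
        ‖fderiv ℝ h x - F x‖ₑ ^ p + O.indicator u x := by
      filter_upwards [ae_restrict_mem hΩ.measurableSet,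
        ae_restrict_of_ae (measure_eq_zero_iff_ae_notMem.1 hZ0),
        ae_restrict_of_ae (measure_eq_zero_iff_ae_notMem.1 hdiff)] with x hx hxZ hxd
      rcases c x hx with ⟨z, hz, hxz, e⟩ | ⟨-, e⟩
      · rw [indicator_of_mem (hrb' z hz x hxz).1.2, e.fderiv_eq]
        refine le_add_left (pow_le hp0 (norm_fderiv_le_of_lip' ℝ (by positivity) ?_))
        have hd : DifferentiableAt ℝ h x := not_not.1 fun h0 => hxd ⟨⟨hx, hxZ⟩, h0⟩
        filter_upwards [hkl z hz x, hd.hasFDerivAt.isLittleO.bound one_pos] with y h4 h5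
        have h6 := (fderiv ℝ h x).le_opNorm (y - x)
        have h7 := norm_add_le (h y - h x - fderiv ℝ h x (y - x)) (fderiv ℝ h x (y - x))
        rw [sub_add_cancel] at h7
        linarith
      · rw [e.fderiv_eq]; exact le_self_add
    refine (lintegral_mono_ae h3).trans ?_
    have h4 : AEMeasurable (fun x => ‖fderiv ℝ h x - F x‖ₑ ^ p) (volume.restrict Ω) :=
      ((measurable_fderiv ℝ h).aestronglyMeasurable.sub hFm).enorm.pow_const p
    rw [lintegral_add_left' h4, lintegral_indicator hO.measurableSet, ← add_halves ε,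
      ENNReal.ofReal_add (half_pos hε).le (half_pos hε).le]
    exact add_le_add hen.le (hδu O ((Measure.restrict_apply_le _ _).trans_lt hOδ)).le

end Vale.Agent.N073
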