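import Vale.Agent.N073.All

/-!
# P073: approximation of Sobolev homeomorphisms in dimension three by diffeomorphisms and by
piecewise affine homeomorphisms, in the Sobolev norm and uniformly
-/

open Set MeasureTheory Filter Topology

namespace Vale.Agent.N073.OldUniformPiecewiseAffine

open Vale.Agent.P073Z.Fin Vale.Agent.N073

theorem withdrawn :
    (∀ (p : ℝ), 1 ≤ p → ∀ (Ω Λ : Set R3) (f : R3 → R3) (Df : R3 → Matrix (Fin 3) (Fin 3) ℝ),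
      IsBoundedDomain Ω → IsBoundedDomain Λ → IsHomeoOnto f Ω Λ → IsW1p p Ω f Df →
      DiffeoApproximable p Ω Λ f Df) ∧
    (∀ (p : ℝ), 1 ≤ p → ∀ (Ω Λ : Set R3) (f : R3 → R3) (Df : R3 → Matrix (Fin 3) (Fin 3) ℝ),
      IsBoundedDomain Ω → IsBoundedDomain Λ → IsHomeoOnto f Ω Λ → IsW1p p Ω f Df →
      ∃ (g : ℕ → R3 → R3) (Dg : ℕ → R3 → Matrix (Fin 3) (Fin 3) ℝ),
        (∀ k, IsDiffeoOnto (g k) Ω Λ ∧ IsW1p p Ω (g k) (Dg k)) ∧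
        Tendsto (fun k => ∫⁻ x in Ω,
          ENNReal.ofReal (‖g k x - f x‖ ^ p + frob (Dg k x - Df x) ^ p)) atTop (𝓝 0) ∧
        TendstoUniformlyOn g f atTop Ω) ∧
    ∀ (p : ℝ), 1 ≤ p → ∀ (Ω Λ : Set R3) (f : R3 → R3) (Df : R3 → Matrix (Fin 3) (Fin 3) ℝ),
      IsBoundedDomain Ω → IsBoundedDomain Λ → IsHomeoOnto f Ω Λ → IsW1p p Ω f Df →
      ∃ (h : ℕ → R3 → R3) (Dh : ℕ → R3 → Matrix (Fin 3) (Fin 3) ℝ),
        (∀ k, IsHomeoOnto (h k) Ω Λ ∧ IsPiecewiseAffineOn (h k) Ω ∧ IsW1p p Ω (h k) (Dh k)) ∧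
        Tendsto (fun k => ∫⁻ x in Ω,
          ENNReal.ofReal (‖h k x - f x‖ ^ p + frob (Dh k x - Df x) ^ p)) atTop (𝓝 0) ∧
        TendstoUniformlyOn h f atTop Ω := by
  refine ⟨fun p hp Ω Λ f Df hΩ hΛ hf hW => ?_, fun p hp Ω Λ f Df hΩ hΛ hf hW => ?_,
    fun p hp Ω Λ f Df hΩ hΛ hf hW => ?_⟩
  · choose g hg hc using fun k : ℕ =>
      (stepS hp (pl0_all hp) hΩ hΛ hf hW (ε := 1 / ((k : ℝ) + 1)) (by positivity)).1
    exact ⟨g, _, hg, (conv hp hΩ hc).1⟩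
  · choose g hg hc using fun k : ℕ =>
      (stepS hp (pl0_all hp) hΩ hΛ hf hW (ε := 1 / ((k : ℝ) + 1)) (by positivity)).1
    exact ⟨g, _, hg, conv hp hΩ hc⟩
  · choose h hh hc using fun k : ℕ =>
      (stepS hp (pl0_all hp) hΩ hΛ hf hW (ε := 1 / ((k : ℝ) + 1)) (by positivity)).2
    exact ⟨h, _, hh, conv hp hΩ hc⟩

end Vale.Agent.N073.OldUniformPiecewiseAffine
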